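import Vale.Agent.N049.Near

/-!
# The counting potential for short walks between free half-edges
-/

namespace Vale.Agent.N049

open Finset Vale.Agent.P049 Vale.Agent.Lib.PolyTime Vale.Agent.P315.H155

section Defs

variable {K : Type*} [Field K]

/-- The weight of a pair of vertices. -/
def omg (d N g : ℕ) (t : K) (π : ℕ → ℕ) (u v : ℕ) : K :=
  ∑ i ∈ range g, if Near d N π i u v then t ^ i else 0

/-- The total weight of the pairs of distinct free half-edges. -/
def cntG (d N g : ℕ) (t : K) (π : ℕ → ℕ) : K :=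
  ∑ c ∈ range N, ∑ e ∈ range N,
    if N ≤ π c ∧ N ≤ π e ∧ c ≠ e then omg d N g t π (c / d) (e / d) else 0

end Defs

theorem cast_omg (d N g : ℕ) (t : ℚ) (π : ℕ → ℕ) (u v : ℕ) :
    ((omg d N g t π u v : ℚ) : ℝ) = omg d N g (t : ℝ) π u v := by
  simp only [omg, Rat.cast_sum]
  refine sum_congr rfl fun i _ => ?_
  split_ifs <;> simp

theorem cast_cntG (d N g : ℕ) (t : ℚ) (π : ℕ → ℕ) :
    ((cntG d N g t π : ℚ) : ℝ) = cntG d N g (t : ℝ) π := by
  simp only [cntG, Rat.cast_sum]
  refine sum_congr rfl fun c _ => sum_congr rfl fun e _ => ?_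
  split_ifs
  · exact cast_omg ..
  · simp

variable {d N g : ℕ} {t : ℝ} {π : ℕ → ℕ}

theorem ind_nonneg (ht : 0 ≤ t) (p : Prop) [Decidable p] (i : ℕ) :
    0 ≤ (if p then t ^ i else 0) := by
  split_ifs
  · positivity
  · exact le_rfl

theorem omg_nonneg (ht : 0 ≤ t) (u v : ℕ) : 0 ≤ omg d N g t π u v :=
  sum_nonneg fun i _ => ind_nonneg ht _ i

theorem omg_symm (hπ : Invol N π) (u v : ℕ) : omg d N g t π u v = omg d N g t π v u := by
  simp only [omg, near_symm hπ _ u v]

theorem omg_far {u v : ℕ} (h : ¬ Near d N π (g - 1) u v) : omg d N g t π u v = 0 :=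
  sum_eq_zero fun i hi => if_neg fun h1 => h (h1.mono (by have := mem_range.1 hi; omega))

theorem le_omg (ht : 0 ≤ t) (hg : 1 ≤ g) {u v : ℕ} (h : Near d N π (g - 1) u v) :
    t ^ (g - 1) ≤ omg d N g t π u v := by
  have := single_le_sum (s := range g) (f := fun i => if Near d N π i u v then t ^ i else 0)
    (fun i _ => ind_nonneg ht _ i) (mem_range.2 (by omega : g - 1 < g))
  simp only [if_pos h] at this
  exact this

theorem cauchy_le (g : ℕ) {x z : ℕ → ℝ} (hx : ∀ j, 0 ≤ x j) (hz : ∀ l, 0 ≤ z l) :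
    ∑ i ∈ range g, ∑ p ∈ (range g ×ˢ range g).filter (fun p => p.1 + p.2 + 1 = i),
      x p.1 * z p.2 ≤ (∑ j ∈ range g, x j) * ∑ l ∈ range g, z l := by
  rw [sum_fiberwise_eq_sum_filter, sum_mul_sum, ← sum_product']
  exact sum_le_sum_of_subset_of_nonneg (filter_subset _ _) fun p _ _ => mul_nonneg (hx _) (hz _)

theorem omg_upd (ht : 0 ≤ t) (a b u v : ℕ) : omg d N g t (upd π a b) u v ≤ omg d N g t π u v +
    t * (omg d N g t π u (a / d) * omg d N g t π (b / d) v +
      omg d N g t π u (b / d) * omg d N g t π (a / d) v) := by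
  set x1 : ℕ → ℝ := fun j => if Near d N π j u (a / d) then t ^ j else 0 with hx1
  set z1 : ℕ → ℝ := fun j => if Near d N π j (b / d) v then t ^ j else 0 with hz1
  set x2 : ℕ → ℝ := fun j => if Near d N π j u (b / d) then t ^ j else 0 with hx2
  set z2 : ℕ → ℝ := fun j => if Near d N π j (a / d) v then t ^ j else 0 with hz2
  have n1 : ∀ j, 0 ≤ x1 j := fun j => ind_nonneg ht _ j
  have n2 : ∀ j, 0 ≤ z1 j := fun j => ind_nonneg ht _ j
  have n3 : ∀ j, 0 ≤ x2 j := fun j => ind_nonneg ht _ j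
  have n4 : ∀ j, 0 ≤ z2 j := fun j => ind_nonneg ht _ j
  have c1 := cauchy_le g n1 n2
  have c2 := cauchy_le g n3 n4
  have key : ∀ i ∈ range g, (if Near d N (upd π a b) i u v then t ^ i else 0) ≤
      (if Near d N π i u v then t ^ i else 0) +
      t * (∑ p ∈ (range g ×ˢ range g).filter (fun p => p.1 + p.2 + 1 = i), x1 p.1 * z1 p.2 +
        ∑ p ∈ (range g ×ˢ range g).filter (fun p => p.1 + p.2 + 1 = i), x2 p.1 * z2 p.2) := by
    intro i hi
    have hi' := mem_range.1 hi
    have s1 : 0 ≤ ∑ p ∈ (range g ×ˢ range g).filter (fun p => p.1 + p.2 + 1 = i),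
        x1 p.1 * z1 p.2 := sum_nonneg fun p _ => mul_nonneg (n1 _) (n2 _)
    have s2 : 0 ≤ ∑ p ∈ (range g ×ˢ range g).filter (fun p => p.1 + p.2 + 1 = i),
        x2 p.1 * z2 p.2 := sum_nonneg fun p _ => mul_nonneg (n3 _) (n4 _)
    have s3 := ind_nonneg ht (Near d N π i u v) i
    by_cases h : Near d N (upd π a b) i u v
    swap
    · rw [if_neg h]; positivity
    rw [if_pos h]
    rcases near_upd h with h | ⟨j, l, e, h⟩
    · rw [if_pos h]
      have : 0 ≤ t * (∑ p ∈ (range g ×ˢ range g).filter (fun p => p.1 + p.2 + 1 = i),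
        x1 p.1 * z1 p.2 + ∑ p ∈ (range g ×ˢ range g).filter (fun p => p.1 + p.2 + 1 = i),
          x2 p.1 * z2 p.2) := by positivity
      linarith
    have hm : (j, l) ∈ (range g ×ˢ range g).filter (fun p => p.1 + p.2 + 1 = i) :=
      mem_filter.2 ⟨mem_product.2 ⟨mem_range.2 (by omega), mem_range.2 (by omega)⟩, e⟩
    have e1 : t ^ i = t * (t ^ j * t ^ l) := by rw [← e]; ring
    rcases h with h | h
    · have := single_le_sum (f := fun p : ℕ × ℕ => x1 p.1 * z1 p.2)
        (fun p _ => mul_nonneg (n1 _) (n2 _)) hm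
      have e2 : x1 j * z1 l = t ^ j * t ^ l := by simp only [hx1, hz1, if_pos h.1, if_pos h.2]
      have h5 := mul_le_mul_of_nonneg_left ((e2.symm.trans_le this).trans
        (le_add_of_nonneg_right s2)) ht
      linarith
    · have := single_le_sum (f := fun p : ℕ × ℕ => x2 p.1 * z2 p.2)
        (fun p _ => mul_nonneg (n3 _) (n4 _)) hm
      have e2 : x2 j * z2 l = t ^ j * t ^ l := by simp only [hx2, hz2, if_pos h.1, if_pos h.2]
      have h5 := mul_le_mul_of_nonneg_left ((e2.symm.trans_le this).trans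
        (le_add_of_nonneg_left s1)) ht
      linarith
  refine (sum_le_sum key).trans ?_
  rw [sum_add_distrib, ← mul_sum, sum_add_distrib]
  exact add_le_add le_rfl (mul_le_mul_of_nonneg_left (add_le_add c1 c2) ht)

theorem cntG_eq (d N g : ℕ) (t : ℝ) (π : ℕ → ℕ) : cntG d N g t π =
    ∑ c ∈ alive N π, ∑ e ∈ alive N π, if c ≠ e then omg d N g t π (c / d) (e / d) else 0 := by
  unfold cntG alive
  rw [sum_filter]
  refine sum_congr rfl fun c _ => ?_
  by_cases hc : N ≤ π c
  · rw [if_pos hc, sum_filter]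
    refine sum_congr rfl fun e _ => ?_
    by_cases he : N ≤ π e <;> simp [hc, he]
  · simp [hc]

/-- The total weight seen from one half-edge. -/
noncomputable def rowG (d N g : ℕ) (t : ℝ) (π : ℕ → ℕ) (a : ℕ) : ℝ :=
  ∑ e ∈ alive N π, if a ≠ e then omg d N g t π (a / d) (e / d) else 0

theorem ent_nonneg (ht : 0 ≤ t) (a e : ℕ) :
    0 ≤ (if a ≠ e then omg d N g t π (a / d) (e / d) else 0) := by
  split_ifs
  · exact omg_nonneg ht _ _
  · exact le_rfl

theorem rowG_nonneg (ht : 0 ≤ t) (a : ℕ) : 0 ≤ rowG d N g t π a :=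
  sum_nonneg fun e _ => ent_nonneg ht a e

theorem sum_rowG : ∑ a : alive N π, rowG d N g t π a = cntG d N g t π := by
  rw [cntG_eq]
  exact sum_coe_sort (alive N π) fun a => rowG d N g t π a

theorem cntG_nonneg (ht : 0 ≤ t) : 0 ≤ cntG d N g t π := by
  rw [← sum_rowG]
  exact sum_nonneg fun a _ => rowG_nonneg ht a

theorem cntG_upd (ht : 0 ≤ t) (hπ : Invol N π) {a b : ℕ} (ha : a ∈ alive N π)
    (hb : b ∈ alive N π) (hab : ¬ Near d N π (g - 1) (a / d) (b / d)) :
    cntG d N g t (upd π a b) ≤ cntG d N g t π - 2 * rowG d N g t π a - 2 * rowG d N g t π b +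
      2 * t * (rowG d N g t π a * rowG d N g t π b) := by
  have hne : a ≠ b := by rintro rfl; exact hab (Near.refl _ _)
  have h1 := sum_sum_rest ha hb hne
    (g := fun c e => if c ≠ e then omg d N g t π (c / d) (e / d) else 0)
    fun c e => by simp only [ne_comm, omg_symm hπ (c / d)]
  simp only [ne_eq, not_true_eq_false, if_false, add_zero, omg_far hab, ite_self, mul_zero] at h1
  have h2 : ∀ x y, ∑ c ∈ rest (alive N π) x y, omg d N g t π (x / d) (c / d) ≤
      rowG d N g t π x := fun x y => by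
    refine le_trans (le_of_eq (sum_congr rfl fun c hc => ?_))
      (sum_le_sum_of_subset_of_nonneg (rest_subset _ x y) fun e _ _ => ent_nonneg ht x e)
    rw [if_pos (mem_rest.1 hc).2.1.symm]
  have hr : rest (alive N π) b a = rest (alive N π) a b := by
    ext c; simp only [mem_rest]; tauto
  have ha' := h2 a b
  have hb' := h2 b a
  rw [hr] at hb'
  have h3 : ∀ c e, (if c ≠ e then omg d N g t (upd π a b) (c / d) (e / d) else 0) ≤
      (if c ≠ e then omg d N g t π (c / d) (e / d) else 0) +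
      t * (omg d N g t π (a / d) (c / d) * omg d N g t π (b / d) (e / d)) +
      t * (omg d N g t π (b / d) (c / d) * omg d N g t π (a / d) (e / d)) := by
    intro c e
    have p1 := mul_nonneg ht (mul_nonneg (omg_nonneg (d := d) (N := N) (g := g) (π := π) ht
      (a / d) (c / d)) (omg_nonneg (d := d) (N := N) (g := g) (π := π) ht (b / d) (e / d)))
    have p2 := mul_nonneg ht (mul_nonneg (omg_nonneg (d := d) (N := N) (g := g) (π := π) ht
      (b / d) (c / d)) (omg_nonneg (d := d) (N := N) (g := g) (π := π) ht (a / d) (e / d)))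
    split_ifs
    · have := omg_upd (d := d) (N := N) (g := g) (π := π) ht a b (c / d) (e / d)
      rw [omg_symm hπ (c / d) (a / d), omg_symm hπ (c / d) (b / d)] at this
      linarith
    · linarith
  rw [cntG_eq, cntG_eq, alive_upd (mem_alive.1 ha).1 (mem_alive.1 hb).1]
  refine (sum_le_sum fun c _ => sum_le_sum fun e _ => h3 c e).trans ?_
  simp only [sum_add_distrib, ← mul_sum, ← sum_mul]
  have n2 : 0 ≤ ∑ c ∈ rest (alive N π) a b, omg d N g t π (b / d) (c / d) :=
    sum_nonneg fun _ _ => omg_nonneg ht _ _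
  have h4 := mul_le_mul_of_nonneg_left (mul_le_mul ha' hb' n2 (rowG_nonneg ht a)) ht
  simp only [ne_eq]
  rw [h1]
  unfold rowG at h4 ⊢
  simp only [ne_eq] at h4 ⊢
  nlinarith

/-- The drift of the counting potential. -/
theorem drift_cntG (ht : 0 ≤ t) (hπ : Invol N π) {w : alive N π → alive N π → ℝ}
    {ε : ℝ} (hε : 0 ≤ ε) (hw : ∀ a b, 0 ≤ w a b) (hw2 : ∀ a b, w a b ≤ 2)
    (hs : ∀ a b, w a b = w b a) (hrow : ∀ a, ∑ b, |w a b - 1| ≤ ε * Fintype.card (alive N π))
    (hF : ∀ a b, w a b ≠ 0 → ¬ Near d N π (g - 1) (a / d) (b / d))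
    (hk : 4 ≤ Fintype.card (alive N π)) {lam : ℝ} (hl : 0 < lam)
    (h1 : cntG d N g t π ≤ lam * (Fintype.card (alive N π) : ℝ) ^ 2) :
    ∑ a, ∑ b, w a b * (cntG d N g t (upd π a b) /
      (lam * ((Fintype.card (alive N π) : ℝ) - 2) ^ 2) -
      cntG d N g t π / (lam * (Fintype.card (alive N π) : ℝ) ^ 2)) ≤
      32 * ε * Fintype.card (alive N π) + 16 * t * lam * (Fintype.card (alive N π) : ℝ) ^ 2 := by
  have hL := cntG_nonneg (d := d) (N := N) (g := g) (π := π) ht
  have hG : ∑ a : alive N π, ∑ b : alive N π, w a b *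
      (2 * t * (rowG d N g t π a * rowG d N g t π b)) ≤
      4 * t * (lam * (Fintype.card (alive N π) : ℝ) ^ 2) ^ 2 := by
    have h3 : ∑ a : alive N π, ∑ b : alive N π, w a b *
        (2 * t * (rowG d N g t π a * rowG d N g t π b)) ≤
        ∑ a : alive N π, ∑ b : alive N π, 4 * t * (rowG d N g t π a * rowG d N g t π b) := by
      refine sum_le_sum fun a _ => sum_le_sum fun b _ => ?_
      have := mul_nonneg ht (mul_nonneg (rowG_nonneg (d := d) (N := N) (g := g) (π := π) ht a)
        (rowG_nonneg (d := d) (N := N) (g := g) (π := π) ht b))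
      nlinarith [hw2 a b]
    refine h3.trans ?_
    simp only [← mul_sum, ← sum_mul, sum_rowG]
    refine mul_le_mul_of_nonneg_left ?_ (by positivity)
    nlinarith
  have := markov_quad hε hw hs hrow hk (f := fun a => rowG d N g t π a)
    (fun a => rowG_nonneg ht _) (X := fun a b => cntG d N g t (upd π a b))
    (g := fun a b => 2 * t * (rowG d N g t π a * rowG d N g t π b))
    (fun a b h => by rw [sum_rowG]; exact cntG_upd ht hπ a.2 b.2 (hF a b h)) (by positivity) hG hl
    (by rw [sum_rowG]; exact h1)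
  rw [sum_rowG] at this
  refine this.trans (le_of_eq ?_)
  have hk0 : (Fintype.card (alive N π) : ℝ) ≠ 0 := by
    have : 0 < Fintype.card (alive N π) := by omega
    exact_mod_cast this.ne'
  field_simp
  ring

theorem cntG_le_ini (hd : 0 < d) (ht : 0 ≤ t) (ht2 : t ≤ 1 / 2) :
    cntG d N g t (fun _ => N) ≤ N * (2 * d) := by
  rw [cntG_eq, alive_const]
  refine (sum_le_card_nsmul _ _ (2 * d : ℝ) fun c _ => ?_).trans (by simp)
  refine le_trans (sum_le_sum (g := fun e => 2 * if e / d = c / d then (1 : ℝ) else 0)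
    fun e _ => ?_) ?_
  · have h1 : omg d N g t (fun _ => N) (c / d) (e / d) ≤
        2 * if e / d = c / d then (1 : ℝ) else 0 := by
      simp only [omg, near_const]
      by_cases h : e / d = c / d
      · simp only [h, if_true, mul_one]
        exact (sum_le_sum fun i _ => pow_le_pow_left₀ ht ht2 i).trans (sum_geometric_two_le g)
      · simp [h, Ne.symm h]
    split_ifs at h1 ⊢ <;> first | exact h1 | norm_num
  · rw [← mul_sum, sum_boole]
    exact mul_le_mul_of_nonneg_left (by exact_mod_cast card_same_le hd _ _) (by norm_num)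

theorem far_of_cntG_lt (ht : 0 ≤ t) (hg : 1 ≤ g) (h : cntG d N g t π < t ^ (g - 1)) {a b : ℕ}
    (ha : a ∈ alive N π) (hb : b ∈ alive N π) (hn : Near d N π (g - 1) (a / d) (b / d)) :
    a = b := by
  by_contra hab
  rw [cntG_eq] at h
  have h1 := single_le_sum (s := alive N π) (f := fun c => ∑ e ∈ alive N π,
    if c ≠ e then omg d N g t π (c / d) (e / d) else 0)
    (fun c _ => sum_nonneg fun e _ => ent_nonneg ht c e) ha
  have h2 := single_le_sum (s := alive N π)
    (f := fun e => if a ≠ e then omg d N g t π (a / d) (e / d) else 0)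
    (fun e _ => ent_nonneg ht a e) hb
  simp only [if_pos hab] at h2
  linarith [le_omg ht hg hn]

section PT

variable {α : Type*} [Enc α]

theorem esize_growL_le (d N : ℕ) (π : ℕ → ℕ) (B : List ℕ) :
    esize (growL d N π B) ≤ N * (2 * N + 1) := by
  have := esize_list_le (l := growL d N π B) (B := N) fun x hx =>
    (esize_nat_le_self _).trans (mem_growL.1 hx).1.le
  refine this.trans (Nat.mul_le_mul_right _ ?_)
  exact (List.length_filter_le _ _).trans (by simp)

theorem PT_ballL {d N i u : α → ℕ} {l : α → List ℕ} (hd : PT ∅ d) (hN : PT ∅ N) (hNb : PBd N)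
    (hl : PT ∅ l) (hi : PT ∅ i) (hib : PBd i) (hu : PT ∅ u) :
    PT ∅ fun x => ballL (d x) (N x) (look (N x) (l x)) (i x) (u x) := by
  have h0 : PT ∅ fun x => [u x] := PT.cons hu (PT.const [])
  have hN' : PT ∅ fun p : α × List ℕ => N p.1 := hN.comp PT.fst'
  have hNb' : PBd fun p : α × List ℕ => N p.1 := hNb.comp (A := ∅) PT.fst'
  refine PT.iterate' (step := fun x B => growL (d x) (N x) (look (N x) (l x)) B) hi hib h0 ?_
    (b := fun x => esize [u x] + N x * (2 * N x + 1)) (h0.pbd.add (by fun_prop)) fun x j _ => ?_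
  · unfold growL
    refine PT.filter (f := fun (p : α × List ℕ) v => decide (v ∈ p.2) ||
      (List.range (N p.1)).any fun c => decide (look (N p.1) (l p.1) c < N p.1 ∧ c / d p.1 ∈ p.2 ∧
        look (N p.1) (l p.1) c / d p.1 = v)) (PT.range hN' hNb') ?_
    refine (PT.mem PT.fst'.snd PT.snd').or ?_
    refine PT.any (f := fun (q : (α × List ℕ) × ℕ) c => decide (look (N q.1.1) (l q.1.1) c <
      N q.1.1 ∧ c / d q.1.1 ∈ q.1.2 ∧ look (N q.1.1) (l q.1.1) c / d q.1.1 = q.2))
      ((PT.range hN' hNb').comp PT.fst') ?_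
    fun_prop
  · cases j with
    | zero => exact Nat.le_add_right _ _
    | succ j =>
      rw [Function.iterate_succ_apply']
      exact (esize_growL_le ..).trans (Nat.le_add_left _ _)

theorem PT_near {d N i c e : α → ℕ} {l : α → List ℕ} (hd : PT ∅ d) (hN : PT ∅ N) (hNb : PBd N)
    (hl : PT ∅ l) (hi : PT ∅ i) (hib : PBd i) (hc : PT ∅ c) (he : PT ∅ e) :
    PT ∅ fun x => decide (c x < N x ∧
      Near (d x) (N x) (look (N x) (l x)) (i x) (c x / d x) (e x / d x)) := by
  have h1 := PT.mem (PT_ballL hd hN hNb hl hi hib (hc.div hd)) (he.div hd)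
  refine (PT.decide_and (PT.lt hc hN) h1).congr fun x => ?_
  rw [Bool.eq_iff_iff, decide_eq_true_iff, decide_eq_true_iff]
  exact and_congr_right fun h => mem_ballL ((Nat.div_le_self _ _).trans_lt h)

theorem PT_cntG {d N g : α → ℕ} {t : α → ℚ} {l : α → List ℕ} (hd : PT ∅ d) (hN : PT ∅ N)
    (hNb : PBd N) (hg : PT ∅ g) (hgN : ∀ x, g x ≤ N x) (ht : PT ∅ t) (hl : PT ∅ l) :
    PT ∅ fun x => cntG (d x) (N x) (g x) (t x) (look (N x) (l x)) := by
  have key : PT ∅ fun x => ∑ c ∈ range (N x), ∑ e ∈ range (N x),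
      if N x ≤ look (N x) (l x) c ∧ N x ≤ look (N x) (l x) e ∧ c ≠ e then
        ∑ i ∈ range (g x), (if c < N x ∧ Near (d x) (N x) (look (N x) (l x)) (min i (N x))
          (c / d x) (e / d x) then t x ^ min i (N x) else 0) else 0 := by
    refine PT_ratSumRange hN hNb (PT_ratSumRange (hN.comp PT.fst') (hNb.comp (A := ∅) PT.fst') ?_)
    refine PT.ite (PT.decide_and (by fun_prop) (PT.decide_and (by fun_prop)
      (PT.decide_not (by fun_prop)))) ?_ (PT.const 0)
    have hN3 : PT ∅ fun q : ((α × ℕ) × ℕ) × ℕ => N q.1.1.1 := hN.comp PT.fst'.fst.fst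
    have hNb3 : PBd fun q : ((α × ℕ) × ℕ) × ℕ => N q.1.1.1 := hNb.comp (A := ∅) PT.fst'.fst.fst
    have hm : PT ∅ fun q : ((α × ℕ) × ℕ) × ℕ => min q.2 (N q.1.1.1) := PT.min PT.snd' hN3
    refine PT_ratSumRange (hg.comp PT.fst'.fst) ((hNb.mono hgN).comp (A := ∅) PT.fst'.fst) ?_
    exact PT.ite (PT_near (hd.comp PT.fst'.fst.fst) hN3 hNb3 (hl.comp PT.fst'.fst.fst) hm
      (PBd_min_right hNb3) PT.fst'.fst.snd PT.fst'.snd)
      (PT_ratPow (ht.comp PT.fst'.fst.fst) hm (PBd_min_right hNb3)) (PT.const 0)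
  refine key.congr fun x => ?_
  unfold cntG omg
  refine sum_congr rfl fun c hc => sum_congr rfl fun e _ => ?_
  congr 1
  refine sum_congr rfl fun i hi => ?_
  have : min i (N x) = i := min_eq_left ((mem_range.1 hi).le.trans (hgN x))
  simp only [this, mem_range.1 hc, true_and]

end PT

end Vale.Agent.N049
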