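import Vale.Agent.N049.Run
import Mathlib.Combinatorics.SimpleGraph.Girth
import Mathlib.Combinatorics.SimpleGraph.Bipartite

/-!
# The graph and the bipartite double cover of a pairing
-/

namespace Vale.Agent.N049

open Finset Vale.Agent.P049

section General

variable {V : Type*} [Fintype V] [DecidableEq V] {G : SimpleGraph V} [DecidableRel G.Adj]

/-- A regular graph with a spectral gap is connected. -/
theorem connected_of_gap [Nonempty V] {d : ℕ} (hr : G.IsRegularOfDegree d)
    (h : ∀ x : V → ℝ, x ≠ 0 → ∑ i, x i = 0 → (G.adjMatrix ℝ).mulVec x ≠ (d : ℝ) • x) :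
    G.Connected := by
  classical
  refine ⟨fun u v => ?_⟩
  by_contra huv
  set S : Finset V := univ.filter fun w => G.Reachable u w with hS
  refine h (fun w => if G.Reachable u w then (Sᶜ.card : ℝ) else -(S.card : ℝ)) (fun h0 => ?_) ?_ ?_
  · have h1 := congrFun h0 v
    simp only [if_neg huv, Pi.zero_apply, neg_eq_zero, Nat.cast_eq_zero, card_eq_zero] at h1
    have : u ∈ S := mem_filter.2 ⟨mem_univ _, SimpleGraph.Reachable.refl u⟩
    rw [h1] at this
    exact notMem_empty _ this
  · rw [sum_ite, sum_const, sum_const, nsmul_eq_mul, nsmul_eq_mul, ← hS]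
    have : (univ.filter fun w => ¬ G.Reachable u w) = Sᶜ := by
      ext w; simp [hS]
    rw [this]
    ring
  · funext w
    rw [SimpleGraph.adjMatrix_mulVec_apply, Pi.smul_apply, smul_eq_mul, ← hr w,
      ← SimpleGraph.card_neighborFinset_eq_degree, ← nsmul_eq_mul, ← sum_const]
    refine sum_congr rfl fun z hz => ?_
    have ha : G.Adj w z := (G.mem_neighborFinset w z).1 hz
    have : G.Reachable u z ↔ G.Reachable u w :=
      ⟨fun h1 => h1.trans ha.symm.reachable, fun h1 => h1.trans ha.reachable⟩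
    simp only [this]

omit [DecidableEq V] in
/-- A regular graph without the eigenvalue `-d` is not bipartite. -/
theorem not_bipartite_of_gap [Nonempty V] {d : ℕ} (hd : 0 < d) (hr : G.IsRegularOfDegree d)
    (h : ∀ x : V → ℝ, x ≠ 0 → ∑ i, x i = 0 → (G.adjMatrix ℝ).mulVec x ≠ (-(d : ℝ)) • x) :
    ¬ G.IsBipartite := by
  rintro ⟨c⟩
  set x : V → ℝ := fun w => if c w = 0 then 1 else -1 with hx
  have he : (G.adjMatrix ℝ).mulVec x = (-(d : ℝ)) • x := by
    funext w
    rw [SimpleGraph.adjMatrix_mulVec_apply, Pi.smul_apply, smul_eq_mul, ← hr w,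
      ← SimpleGraph.card_neighborFinset_eq_degree, neg_mul, ← mul_neg, ← nsmul_eq_mul, ← sum_const]
    refine sum_congr rfl fun z hz => ?_
    have ha := c.valid ((G.mem_neighborFinset w z).1 hz)
    have two : ∀ a b : Fin 2, a ≠ b → (b = 0 ↔ ¬ a = 0) := by decide
    simp only [hx, two _ _ ha]
    split_ifs <;> simp_all
  refine h x (fun h0 => ?_) ?_ he
  · obtain ⟨v⟩ := ‹Nonempty V›
    have h1 := congrFun h0 v
    simp only [hx, Pi.zero_apply] at h1
    split_ifs at h1 <;> norm_num at h1
  · have h1 : ∑ i, (G.adjMatrix ℝ).mulVec x i = d * ∑ i, x i := by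
      simp only [Matrix.mulVec, dotProduct]
      rw [sum_comm, mul_sum]
      refine sum_congr rfl fun j _ => ?_
      rw [← sum_mul]
      congr 1
      simp only [SimpleGraph.adjMatrix_apply, sum_boole, ← hr j,
        ← SimpleGraph.card_neighborFinset_eq_degree, SimpleGraph.neighborFinset_eq_filter,
        G.adj_comm j]
    rw [he] at h1
    simp only [Pi.smul_apply, smul_eq_mul, ← mul_sum] at h1
    have hd' : (0 : ℝ) < d := by exact_mod_cast hd
    have : (d : ℝ) * ∑ i, x i = 0 := by linarith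
    exact (mul_eq_zero.1 this).resolve_left hd'.ne'

end General

variable {d n g : ℕ} {lam : ℝ} {ρ : ℕ → ℕ}

theorem Pairing.symm (h : Pairing d n g lam ρ) {i j : ℕ} (hi : i < n)
    (hij : adjB d ρ i j = true) : adjB d ρ j i = true := by
  obtain ⟨t, ht, e⟩ := adjB_iff.1 hij
  have hd : 0 < d := by omega
  refine adjB_iff.2 ⟨ρ (i * d + t) % d, Nat.mod_lt _ hd, ?_⟩
  have e2 : j * d + ρ (i * d + t) % d = ρ (i * d + t) := by
    rw [← e, Nat.mul_comm]; exact Nat.div_add_mod _ _
  rw [e2, h.invol _ (half_lt hi ht), half_div ht]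

theorem Pairing.nb_lt (h : Pairing d n g lam ρ) {i t : ℕ} (hi : i < n) (ht : t < d) :
    ρ (i * d + t) / d < n :=
  Nat.div_lt_of_lt_mul (by rw [Nat.mul_comm d n]; exact h.lt _ (half_lt hi ht))

/-- Sums over the neighbours of a vertex are sums over its half-edges. -/
theorem Pairing.sum_adj (h : Pairing d n g lam ρ) (hg : 2 ≤ g) (i : Fin n) (f : ℕ → ℝ) :
    ∑ j : Fin n, (if adjB d ρ i j = true then f j else 0) =
      ∑ t ∈ range d, f (ρ (i * d + t) / d) := by
  rw [← sum_filter]
  symm
  refine Finset.sum_bij (fun t ht => ⟨ρ (i * d + t) / d, h.nb_lt i.2 (mem_range.1 ht)⟩) ?_ ?_ ?_ ?_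
  · intro t ht
    exact mem_filter.2 ⟨mem_univ _, adjB_iff.2 ⟨t, mem_range.1 ht, rfl⟩⟩
  · intro t ht t' ht' e
    have e' : ρ (i * d + t) / d = ρ (i * d + t') / d := congrArg Fin.val e
    have := h.noCyc.noMulti hg h.lt h.invol (half_lt i.2 (mem_range.1 ht))
      (half_lt i.2 (mem_range.1 ht'))
      (by rw [half_div (mem_range.1 ht), half_div (mem_range.1 ht')]) e'
    omega
  · intro j hj
    obtain ⟨t, ht, e⟩ := adjB_iff.1 (mem_filter.1 hj).2
    exact ⟨t, mem_range.2 ht, Fin.ext e⟩
  · intro t _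
    rfl

theorem Pairing.sum_one (h : Pairing d n g lam ρ) (hg : 2 ≤ g) (i : Fin n) :
    ∑ j : Fin n, (if adjB d ρ i j = true then (1 : ℝ) else 0) = d := by
  rw [h.sum_adj hg i fun _ => 1]
  simp

theorem Pairing.eig (h : Pairing d n g lam ρ) (hg : 2 ≤ g) {μ : ℝ} {x : Fin n → ℝ} (hx : x ≠ 0)
    (hs : ∑ i, x i = 0) (he : ∀ i : Fin n, ∑ j : Fin n,
      (if adjB d ρ i j = true then x j else 0) = μ * x i) : |μ| ≤ lam := by
  set y : ℕ → ℝ := fun i => if hi : i < n then x ⟨i, hi⟩ else 0 with hy
  have hyx : ∀ i : Fin n, y i = x i := fun i => by simp [hy]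
  have h0 : ∑ i ∈ range n, y i = 0 := by
    rw [← Fin.sum_univ_eq_sum_range, ← hs]
    exact sum_congr rfl fun i _ => hyx i
  have h1 : ∑ i ∈ range n, y i ^ 2 = ∑ i, x i ^ 2 := by
    rw [← Fin.sum_univ_eq_sum_range (fun i => y i ^ 2)]
    exact sum_congr rfl fun i _ => by rw [hyx]
  have h2 : ∑ a ∈ range (n * d), y (a / d) * y (ρ a / d) = μ * ∑ i, x i ^ 2 := by
    rw [sum_range_mul, ← Fin.sum_univ_eq_sum_range
      (fun i => ∑ t ∈ range d, y ((i * d + t) / d) * y (ρ (i * d + t) / d)), mul_sum]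
    refine sum_congr rfl fun i _ => ?_
    have e1 := he i
    simp only [← hyx] at e1
    rw [h.sum_adj hg i y] at e1
    have e3 : ∑ t ∈ range d, y ((i * d + t) / d) * y (ρ (i * d + t) / d) =
        y i * ∑ t ∈ range d, y (ρ (i * d + t) / d) := by
      rw [mul_sum]
      exact sum_congr rfl fun t ht => by rw [half_div (mem_range.1 ht)]
    rw [e3, e1, hyx]
    ring
  have h3 : 0 < ∑ i, x i ^ 2 := by
    obtain ⟨i, hi⟩ := Function.ne_iff.1 hx
    exact sum_pos' (fun j _ => sq_nonneg _) ⟨i, mem_univ _, by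
      have : x i ≠ 0 := hi
      positivity⟩
  have h4 := h.spec y h0
  rw [h1, h2, abs_mul, abs_of_pos h3] at h4
  exact le_of_mul_le_mul_right h4 h3

/-- Every graph which projects to the pairing, injectively on neighbourhoods, has girth
larger than `g`. -/
theorem Pairing.girth (h : Pairing d n g lam ρ) {V : Type*} (H : SimpleGraph V) (pr : V → Fin n)
    (h1 : ∀ u v, H.Adj u v → adjB d ρ (pr u) (pr v) = true)
    (h2 : ∀ u v w, H.Adj u v → H.Adj v w → pr u = pr w → u = w) :
    ((g + 1 : ℕ) : ℕ∞) ≤ H.egirth := by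
  refine SimpleGraph.le_egirth.2 fun a c hc => ?_
  by_contra hlt
  have hL : c.length ≤ g := by
    have : c.length < g + 1 := by exact_mod_cast not_le.1 hlt
    omega
  have h3 := hc.three_le_length
  obtain ⟨L, hLdef⟩ : ∃ L, L = c.length := ⟨_, rfl⟩
  rw [← hLdef] at hL h3
  set v : ℕ → V := fun i => c.getVert (i % L) with hv
  have hmod : ∀ i, i % L < L := fun i => Nat.mod_lt _ (by omega)
  have hsucc : ∀ i, (i + 1) % L = if i % L + 1 < L then i % L + 1 else 0 := fun i => by
    rw [Nat.add_mod, Nat.mod_eq_of_lt (by omega : 1 < L)]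
    split_ifs with h4
    · exact Nat.mod_eq_of_lt h4
    · rw [show i % L + 1 = L by have := hmod i; omega, Nat.mod_self]
  have adj : ∀ i, H.Adj (v i) (v (i + 1)) := fun i => by
    have h4 := c.adj_getVert_succ (i := i % L) (hLdef ▸ hmod i)
    simp only [hv, hsucc]
    split_ifs with h5
    · exact h4
    · rw [show i % L + 1 = c.length by have := hmod i; omega, c.getVert_length] at h4
      rwa [c.getVert_zero]
  have ne2 : ∀ i, v i ≠ v (i + 1 + 1) := fun i e => by
    have h4 := hc.getVert_injOn' (show i % L ≤ c.length - 1 by have := hmod i; omega)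
      (show (i + 1 + 1) % L ≤ c.length - 1 by have := hmod (i + 1 + 1); omega) e
    have h5 := hmod i
    rw [hsucc, hsucc] at h4
    split_ifs at h4 <;> omega
  have per : ∀ i, v (i + L) = v i := fun i => by simp only [hv, Nat.add_mod_right]
  have ex : ∀ a b : ℕ, ∃ t, adjB d ρ a b = true → t < d ∧ ρ (a * d + t) / d = b := fun a b => by
    by_cases h4 : adjB d ρ a b = true
    · obtain ⟨t, ht⟩ := adjB_iff.1 h4
      exact ⟨t, fun _ => ht⟩
    · exact ⟨0, fun h5 => absurd h5 h4⟩
  choose D hD using ex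
  have hx := fun i => hD _ _ (h1 _ _ (adj i))
  refine h.noCyc L (fun i => pr (v i) * d + D (pr (v i)) (pr (v (i + 1)))) (by omega) hL
    (fun i => half_lt (pr (v i)).2 (hx i).1) (fun i => ?_) (fun i e => ?_) fun i => ?_
  · rw [half_div (hx (i + 1)).1, (hx i).2]
  · refine ne2 i (h2 _ _ _ (adj i) (adj (i + 1)) (Fin.ext ?_))
    rw [← (hx (i + 1)).2, e, h.invol _ (half_lt (pr (v i)).2 (hx i).1), half_div (hx i).1]
  · rw [show i + L + 1 = i + 1 + L by omega, per, per]

/-! ### The graph -/

/-- The graph of a pairing without fixed points. -/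
def Pairing.graph (h : Pairing d n g lam ρ) (hg : 2 ≤ g) (he : Even (d * n)) :
    SimpleGraph (Fin n) where
  Adj i j := adjB d ρ i j = true
  symm := ⟨fun i _ hij => h.symm i.2 hij⟩
  loopless := ⟨fun i hii => by
    obtain ⟨t, ht, e⟩ := adjB_iff.1 hii
    exact h.noCyc.noLoop (by omega) (half_lt i.2 ht) (h.noFix he _ (half_lt i.2 ht))
      (by rw [e, half_div ht])⟩

instance Pairing.decGraph (h : Pairing d n g lam ρ) (hg : 2 ≤ g) (he : Even (d * n)) :
    DecidableRel (h.graph hg he).Adj :=
  fun i j => inferInstanceAs (Decidable (adjB d ρ i j = true))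

theorem degree_eq_sum {V : Type*} [Fintype V] (G : SimpleGraph V) [DecidableRel G.Adj] (v : V) :
    (G.degree v : ℝ) = ∑ w, if G.Adj v w then 1 else 0 := by
  rw [sum_boole, ← SimpleGraph.card_neighborFinset_eq_degree, SimpleGraph.neighborFinset_eq_filter]

theorem mulVec_eq_sum {V : Type*} [Fintype V] (G : SimpleGraph V) [DecidableRel G.Adj]
    (x : V → ℝ) (v : V) : (G.adjMatrix ℝ).mulVec x v = ∑ w, if G.Adj v w then x w else 0 := by
  simp [Matrix.mulVec, dotProduct, SimpleGraph.adjMatrix_apply]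

theorem Pairing.graph_regular (h : Pairing d n g lam ρ) (hg : 2 ≤ g) (he : Even (d * n)) :
    (h.graph hg he).IsRegularOfDegree d := fun i => by
  have := (degree_eq_sum (h.graph hg he) i).trans (h.sum_one hg i)
  exact_mod_cast this

theorem Pairing.graph_eig (h : Pairing d n g lam ρ) (hg : 2 ≤ g) (he : Even (d * n)) (μ : ℝ)
    (x : Fin n → ℝ) (hx : x ≠ 0) (hs : ∑ i, x i = 0)
    (e : ((h.graph hg he).adjMatrix ℝ).mulVec x = μ • x) : |μ| ≤ lam :=
  h.eig hg hx hs fun i => (mulVec_eq_sum (h.graph hg he) x i).symm.trans (congrFun e i)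

theorem Pairing.graph_girth (h : Pairing d n g lam ρ) (hg : 2 ≤ g) (he : Even (d * n)) :
    ((g + 1 : ℕ) : ℕ∞) ≤ (h.graph hg he).egirth :=
  h.girth _ id (fun _ _ e => e) fun _ _ _ _ _ e => e

/-! ### The bipartite double cover -/

/-- Adjacency in the double cover. -/
def covB (d : ℕ) (ρ : ℕ → ℕ) {n : ℕ} : Fin n ⊕ Fin n → Fin n ⊕ Fin n → Bool
  | .inl i, .inr j => adjB d ρ i j
  | .inr i, .inl j => adjB d ρ i j
  | _, _ => false

/-- The bipartite double cover of a pairing. -/
def Pairing.cover (h : Pairing d n g lam ρ) : SimpleGraph (Fin n ⊕ Fin n) where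
  Adj u v := covB d ρ u v = true
  symm := ⟨by
    rintro (i | i) (j | j) hij
    · exact hij
    · exact h.symm i.2 hij
    · exact h.symm i.2 hij
    · exact hij⟩
  loopless := ⟨by rintro (i | i) hii <;> exact Bool.false_ne_true hii⟩

instance Pairing.decCover (h : Pairing d n g lam ρ) : DecidableRel h.cover.Adj :=
  fun u v => inferInstanceAs (Decidable (covB d ρ u v = true))

theorem Pairing.cover_sum_inl (h : Pairing d n g lam ρ) (f : Fin n ⊕ Fin n → ℝ) (i : Fin n) :
    ∑ w, (if h.cover.Adj (.inl i) w then f w else 0) =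
      ∑ j : Fin n, if adjB d ρ i j = true then f (.inr j) else 0 := by
  rw [Fintype.sum_sum_type, sum_eq_zero (f := fun j : Fin n =>
    if h.cover.Adj (.inl i) (.inl j) then f (.inl j) else 0) fun j _ =>
      if_neg Bool.false_ne_true, zero_add]
  rfl

theorem Pairing.cover_sum_inr (h : Pairing d n g lam ρ) (f : Fin n ⊕ Fin n → ℝ) (i : Fin n) :
    ∑ w, (if h.cover.Adj (.inr i) w then f w else 0) =
      ∑ j : Fin n, if adjB d ρ i j = true then f (.inl j) else 0 := by
  rw [Fintype.sum_sum_type, sum_eq_zero (f := fun j : Fin n =>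
    if h.cover.Adj (.inr i) (.inr j) then f (.inr j) else 0) fun j _ =>
      if_neg Bool.false_ne_true, add_zero]
  rfl

theorem Pairing.cover_regular (h : Pairing d n g lam ρ) (hg : 2 ≤ g) :
    h.cover.IsRegularOfDegree d := by
  rintro (i | i)
  · have := ((degree_eq_sum h.cover _).trans (h.cover_sum_inl (fun _ => 1) i)).trans
      (h.sum_one hg i)
    exact_mod_cast this
  · have := ((degree_eq_sum h.cover _).trans (h.cover_sum_inr (fun _ => 1) i)).trans
      (h.sum_one hg i)
    exact_mod_cast this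

theorem Pairing.cover_eig (h : Pairing d n g lam ρ) (hg : 2 ≤ g) (μ : ℝ)
    (x : Fin n ⊕ Fin n → ℝ) (hx : x ≠ 0) (hl : ∑ i, x (.inl i) = 0) (hr : ∑ i, x (.inr i) = 0)
    (e : (h.cover.adjMatrix ℝ).mulVec x = μ • x) : |μ| ≤ lam := by
  have e1 : ∀ i : Fin n, ∑ j : Fin n, (if adjB d ρ i j = true then x (.inr j) else 0) =
      μ * x (.inl i) := fun i =>
    ((mulVec_eq_sum h.cover x _).trans (h.cover_sum_inl x i)).symm.trans (congrFun e _)
  have e2 : ∀ i : Fin n, ∑ j : Fin n, (if adjB d ρ i j = true then x (.inl j) else 0) =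
      μ * x (.inr i) := fun i =>
    ((mulVec_eq_sum h.cover x _).trans (h.cover_sum_inr x i)).symm.trans (congrFun e _)
  by_cases h0 : (fun i => x (.inl i) + x (.inr i)) = 0
  · rw [← abs_neg]
    refine h.eig hg (x := fun i => x (.inl i) - x (.inr i)) (fun h1 => hx ?_)
      (by rw [sum_sub_distrib, hl, hr, sub_zero]) fun i => ?_
    · funext w
      rcases w with i | i <;>
      · have a1 := congrFun h0 i
        have a2 := congrFun h1 i
        simp only [Pi.zero_apply] at a1 a2 ⊢
        linarith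
    · have : ∀ j : Fin n, (if adjB d ρ i j = true then x (.inl j) - x (.inr j) else 0) =
          (if adjB d ρ i j = true then x (.inl j) else 0) -
            (if adjB d ρ i j = true then x (.inr j) else 0) := fun j => by split_ifs <;> simp
      simp only [this, sum_sub_distrib, e1, e2]
      ring
  · refine h.eig hg h0 (by rw [sum_add_distrib, hl, hr, add_zero]) fun i => ?_
    have : ∀ j : Fin n, (if adjB d ρ i j = true then x (.inl j) + x (.inr j) else 0) =
        (if adjB d ρ i j = true then x (.inl j) else 0) +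
          (if adjB d ρ i j = true then x (.inr j) else 0) := fun j => by split_ifs <;> simp
    simp only [this, sum_add_distrib, e1, e2]
    ring

theorem Pairing.cover_girth (h : Pairing d n g lam ρ) : ((g + 1 : ℕ) : ℕ∞) ≤ h.cover.egirth := by
  refine h.girth _ (Sum.elim id id) ?_ ?_
  · rintro (i | i) (j | j) e
    · exact absurd e Bool.false_ne_true
    · exact e
    · exact e
    · exact absurd e Bool.false_ne_true
  · rintro (i | i) (j | j) (k | k) e1 e2 e <;>
      first
        | exact absurd e1 Bool.false_ne_true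
        | exact absurd e2 Bool.false_ne_true
        | exact congrArg _ e

end Vale.Agent.N049
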