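import Vale.Agent.N049.Graph

/-!
# One machine for all degrees
-/

namespace Vale.Agent.N049

open Finset Vale.Agent.P049 Vale.Agent.Lib.PolyTime Vale.Agent.P315.H155

/-- The integer logarithm of `y` to the base `d + 1`, as a sum. -/
def parG (d y : ℕ) : ℕ := ∑ j ∈ range y, if (d + 1) ^ (j + 1) ≤ y then 1 else 0

theorem parG_le (d y : ℕ) : parG d y ≤ y :=
  (sum_le_card_nsmul _ _ 1 fun _ _ => by split_ifs <;> omega).trans (by simp)

theorem parG_eq {d y : ℕ} (hd : 0 < d) (hy : y ≠ 0) : parG d y = Nat.log (d + 1) y := by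
  have h : ∀ j, ((d + 1) ^ (j + 1) ≤ y) ↔ j ∈ range (Nat.log (d + 1) y) := fun j => by
    rw [← Nat.le_log_iff_pow_le (by omega) hy, mem_range]; omega
  simp only [parG, h]
  rw [sum_boole, filter_mem_eq_inter, inter_eq_right.2 (range_mono (Nat.log_le_self _ _))]
  simp

/-- The partner function computed by the algorithm. -/
def rho (d n : ℕ) : ℕ → ℕ :=
  complete2 (n * d) ((step2 d (n * d) (parG d (parY d n)) fun S =>
    fullPot2 d (n * d) (parG d (parY d n)) (parY d n : ℚ) (Psi (n * d) (parY d n : ℚ))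
      (look (n * d) S.1) (mat S.2.1) (mat S.2.2))^[(n * d - parY d n ^ 334333 + 1) / 2]
    (iniSt (parM' d n) (parP d n) d (n * d))).1

/-- The output word. -/
def outU (q : ℕ × ℕ) : List Bool :=
  (List.range q.2).flatMap fun i => (List.range q.2).map fun j => adjB q.1 (rho q.1 q.2) i j

section PT

variable {α : Type*} [Enc α]

theorem PT_parG {d y : α → ℕ} (hd : PT ∅ d) (hy : PT ∅ y) (hyb : PBd y) :
    PT ∅ fun x => parG (d x) (y x) := by
  have hy' : PT ∅ fun p : α × ℕ => y p.1 := hy.comp PT.fst'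
  refine (PT.natSumRange (f := fun x j => if (d x + 1) ^ min (j + 1) (y x) ≤ y x then 1 else 0)
    hy hyb (PT.ite (PT.le (PT.pow ((hd.comp PT.fst').add (PT.const 1))
      (PT.min (PT.snd'.add (PT.const 1)) hy') (PBd_min_right (hyb.comp (A := ∅) PT.fst'))) hy')
      (PT.const 1) (PT.const 0))).congr fun x => ?_
  refine sum_congr rfl fun j hj => ?_
  rw [min_eq_left (mem_range.1 hj)]

theorem PT_parM2 {q M e : α → ℕ} (hq : PT ∅ q) (hM : PT ∅ M) (he : PT ∅ e) :
    PT ∅ fun x => parM (q x) (M x) (e x) := by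
  unfold parM
  exact PT_ratDiv (PT_natCast (PT.natSqrt (((PT.pow hM (PT.const 2) (PBd.const 2)).mul
    (PT.pow (hM.sub he) (PT.const 2) (PBd.const 2))).div hq)))
    (PT_ratPowConst (PT_natCast hM) 2)

theorem PT_rho {d n : α → ℕ} (hd : PT ∅ d) (hdb : PBd d) (hn : PT ∅ n) (hnb : PBd n) :
    PT ∅ fun p : α × ℕ => rho (d p.1) (n p.1) p.2 := by
  have hN : PT ∅ fun x => n x * d x := hn.mul hd
  have hNb : PBd fun x => n x * d x := hnb.mul hdb
  have hy : PT ∅ fun x => parY (d x) (n x) := PT_nthRoot (by norm_num) hN hNb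
  have hyN : ∀ x, parY (d x) (n x) ≤ n x * d x := fun x => nthRoot_le_self (by norm_num) _
  have hg := PT_parG hd hy (hNb.mono hyN)
  have hgN : ∀ x, parG (d x) (parY (d x) (n x)) ≤ n x * d x := fun x =>
    (parG_le _ _).trans (hyN x)
  have hpow : ∀ j : ℕ, PT ∅ fun x => parY (d x) (n x) ^ j := fun j =>
    PT.pow hy (PT.const j) (PBd.const j)
  have hm : PT ∅ fun x => parM' (d x) (n x) :=
    PT_parM2 (hd.sub (PT.const 1)) hN ((PT.const 2).mul (hpow _))
  have hp : PT ∅ fun x => parP (d x) (n x) :=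
    PT_ratAdd hm (PT_ratMul (PT.const 16) (PT_ratPowConst (PT_ratDiv (PT_ratMul (PT.const 2)
      (PT_ratPowConst (PT_natCast hy) _)) (PT_natCast hN)) 2))
  have hP := PT_fullPot2 (α := α × St) (hd.comp PT.fst') (hN.comp PT.fst')
    (hNb.comp (A := ∅) PT.fst') (hg.comp PT.fst') (fun x => hgN x.1) (hy.comp PT.fst') PT.snd'
  have hrun := PT_run2 (P := fun x S => fullPot2 (d x) (n x * d x) (parG (d x) (parY (d x) (n x)))
    (parY (d x) (n x) : ℚ) (Psi (n x * d x) (parY (d x) (n x) : ℚ)) (look (n x * d x) S.1)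
      (mat S.2.1) (mat S.2.2)) hd hN hNb hg (hNb.mono hgN)
    (((hN.sub (hpow 334333)).add (PT.const 1)).div (PT.const 2))
    ((hNb.add (PBd.const 1)).mono fun x => by omega) hm hp hP
  exact PT_complete2 (hN.comp PT.fst') (hNb.comp (A := ∅) PT.fst') (hrun.fst.comp PT.fst') PT.snd'

theorem PT_outU {d n : α → ℕ} (hd : PT ∅ d) (hdb : PBd d) (hn : PT ∅ n) (hnb : PBd n) :
    PT ∅ fun x => outU (d x, n x) := by
  have hπ := PT_rho hd hdb hn hnb
  have hr : PT ∅ fun x => List.range (n x) := PT.range hn hnb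
  have hd3 : PT ∅ fun p : ((α × ℕ) × ℕ) × ℕ => d p.1.1.1 := hd.comp PT.fst'.fst.fst
  have h1 : PT ∅ fun p : ((α × ℕ) × ℕ) × ℕ =>
      rho (d p.1.1.1) (n p.1.1.1) (p.1.1.2 * d p.1.1.1 + p.2) :=
    hπ.comp (f := fun p : ((α × ℕ) × ℕ) × ℕ => (p.1.1.1, p.1.1.2 * d p.1.1.1 + p.2))
      (PT.pair PT.fst'.fst.fst ((PT.fst'.fst.snd.mul hd3).add PT.snd'))
  have h2 : PT ∅ fun p : (α × ℕ) × ℕ => adjB (d p.1.1) (rho (d p.1.1) (n p.1.1)) p.1.2 p.2 :=
    PT.any (f := fun (p : (α × ℕ) × ℕ) t =>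
      decide (rho (d p.1.1) (n p.1.1) (p.1.2 * d p.1.1 + t) / d p.1.1 = p.2))
      ((PT.range hd hdb).comp PT.fst'.fst) ((h1.div hd3).eqNat PT.fst'.snd)
  exact PT.flatMap (f := fun x i => (List.range (n x)).map fun j =>
    adjB (d x) (rho (d x) (n x)) i j) hr
    (PT.map (f := fun (p : α × ℕ) j => adjB (d p.1) (rho (d p.1) (n p.1)) p.2 j)
      (hr.comp PT.fst') h2)

end PT

theorem exists_machine : ∃ M : Turing.TM2ComputableInPolyTime
    (fun q : ℕ × ℕ => List.replicate q.1 true ++ false :: List.replicate q.2 true)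
    (fun w : List Bool => w) outU, ∀ k, Finite (M.tm.Γ k) := by
  have hw : PT ∅ fun u : Raw => (u.w : List Bool) := PT.listOfRaw PT.id
  have ht : PT ∅ fun u : Raw => (u.w : List Bool).takeWhile fun b => b :=
    PT.takeWhile (f := fun _ b => b) hw PT.snd'
  obtain ⟨g, hg, hg'⟩ := PT.rawOfList (PT_outU ht.length (PBd_length ht)
    ((hw.length.sub ht.length).sub (PT.const 1)) (PBd_sub (PBd_sub (PBd_length hw))))
  refine exists_tm2_of_polyTimeFun _ _ outU g (polyTimeFun_iff.2 hg) fun q => ?_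
  have e : (List.replicate q.1 true ++ false :: List.replicate q.2 true).takeWhile (fun b => b) =
      List.replicate q.1 true := by
    rw [List.takeWhile_append_of_pos (by simp)]
    simp
  refine (hg' ⟨List.replicate q.1 true ++ false :: List.replicate q.2 true⟩).trans ?_
  change outU _ = outU q
  congr 1
  simp only [e, List.length_append, List.length_replicate, List.length_cons]
  ext
  · rfl
  · simp

theorem outU_eq (d n : ℕ) : outU (d, n) = (List.finRange n).flatMap fun i : Fin n =>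
    (List.finRange n).map fun j : Fin n => adjB d (rho d n) i j := by
  change (List.range n).flatMap (fun i => (List.range n).map fun j => adjB d (rho d n) i j) = _
  rw [← finRange_flatMap]
  congr 1
  funext i
  exact (finRange_map n fun j => adjB d (rho d n) i j).symm

/-- The margin in terms of `n`. -/
theorem margin_le {y n d : ℝ} (hy : 1 ≤ y) (hd0 : 0 < d) (hd : d ≤ y) (h1 : y ^ 1000000 ≤ n * d)
    (h2 : n * d ≤ 2 * y ^ 1000000) :
    n ^ (-(663 / 1000 : ℝ)) ≤ (2 * y ^ 668668 / (n * d)) ^ 2 := by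
  have hy0 : 0 < y := by linarith
  have hN0 : 0 < n * d := lt_of_lt_of_le (by positivity) h1
  have hn0 : 0 < n := (pos_iff_pos_of_mul_pos hN0).2 hd0
  have h3 : y ^ 999999 ≤ n := by
    refine le_of_mul_le_mul_right ?_ hy0
    rw [← pow_succ]
    exact h1.trans (mul_le_mul_of_nonneg_left hd hn0.le)
  have h4 : y ^ 662664 ≤ n ^ (663 / 1000 : ℝ) := by
    refine le_trans ?_ (Real.rpow_le_rpow (by positivity) h3 (by norm_num))
    rw [← Real.rpow_natCast, ← Real.rpow_natCast, ← Real.rpow_mul hy0.le]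
    exact Real.rpow_le_rpow_of_exponent_le hy (by norm_num)
  have h5 : 2 * y ^ 668668 / (2 * y ^ 1000000) ≤ 2 * y ^ 668668 / (n * d) :=
    div_le_div_of_nonneg_left (by positivity) hN0 h2
  have h6 : (2 * y ^ 668668 / (2 * y ^ 1000000)) ^ 2 = (y ^ 662664)⁻¹ := by
    have e : y ^ 1000000 = y ^ 668668 * y ^ 331332 := by rw [← pow_add]
    have e' : y ^ 662664 = (y ^ 331332) ^ 2 := by rw [← pow_mul]
    have p1 : 0 < y ^ 668668 := by positivity
    have p2 : 0 < y ^ 331332 := by positivity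
    rw [e, e']
    generalize y ^ 668668 = a at p1 ⊢
    generalize y ^ 331332 = b at p2 ⊢
    field_simp
  rw [Real.rpow_neg hn0.le]
  refine (inv_anti₀ (by positivity) h4).trans ?_
  rw [← h6]
  exact pow_le_pow_left₀ (by positivity) h5 2

theorem pairing_rho {d n : ℕ} (hd : 3 ≤ d) (hn : d ^ 10 ^ 8 ≤ n) : ∃ (g : ℕ) (lam : ℝ),
    Pairing d n g lam (rho d n) ∧ 2 ≤ g ∧ Nat.log (d + 1) n / 10 ^ 6 ≤ g ∧
      lam ≤ 2 * √((d : ℝ) - 1) * (1 - (n : ℝ) ^ (-(663 / 1000 : ℝ))) := by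
  have hy1 : d ^ 63 ≤ parY d n := le_nthRoot_of_le (by norm_num) (by omega) (by
    rw [← pow_mul]
    exact (Nat.pow_le_pow_right (by omega) (by norm_num)).trans hn)
  have hy2 : 10 ^ 30 ≤ parY d n :=
    le_trans (le_trans (by norm_num) (Nat.pow_le_pow_left hd 63)) hy1
  have hb := nthRoot_bounds (M := 1000000) (N := n * d) (by norm_num)
    (le_trans (by norm_num) hy2)
  have hb3 : n * d < (parY d n + 1) ^ 1000000 := Nat.lt_pow_nthRoot_add_one (by norm_num) _
  have hM : parM' d n = parM (d - 1) (n * d) (2 * parY d n ^ 668668) := rfl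
  have hP : (parP d n : ℝ) =
      parM' d n + 16 * (2 * (parY d n : ℝ) ^ 668668 / (n * d : ℕ)) ^ 2 := by
    unfold parP
    rw [Rat.cast_add, Rat.cast_mul, Rat.cast_pow, Rat.cast_div, Rat.cast_mul, Rat.cast_pow,
      Rat.cast_natCast, Rat.cast_natCast, Rat.cast_ofNat, Rat.cast_ofNat]
  change ((parY d n : ℕ) : ℝ) ^ 1000000 ≤ _ ∧ _ ≤ 2 * ((parY d n : ℕ) : ℝ) ^ 1000000 at hb
  unfold rho
  generalize parY d n = y at *
  generalize parP d n = p at *
  generalize parM' d n = mq at *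
  rw [parG_eq (by omega) (by omega)]
  obtain ⟨g, hg⟩ : ∃ g, g = Nat.log (d + 1) y := ⟨_, rfl⟩
  rw [← hg]
  have g1 : (d + 1) ^ g ≤ y := hg ▸ Nat.pow_log_le_self _ (by omega)
  have g2 : y < (d + 1) ^ (g + 1) := hg ▸ Nat.lt_pow_succ_log_self (by omega) _
  have hdd : d + 1 ≤ d ^ 2 := by nlinarith only [hd]
  have g3 : 2 ≤ g := hg ▸ Nat.le_log_of_pow_le (by omega) ((Nat.pow_le_pow_left hdd 2).trans
    (by rw [← pow_mul]; exact (Nat.pow_le_pow_right (by omega) (by norm_num)).trans hy1))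
  have hyd : d ≤ y := (Nat.le_self_pow (by norm_num) d).trans hy1
  have hd' : (3 : ℝ) ≤ d := by exact_mod_cast hd
  have hyd' : (d : ℝ) ≤ y := by exact_mod_cast hyd
  have hy2' : (10 : ℝ) ^ 30 ≤ y := by exact_mod_cast hy2
  have hypos : (0 : ℝ) < y := lt_of_lt_of_le (by norm_num) hy2'
  have hy1' : (1 : ℝ) ≤ y := le_trans (by norm_num) hy2'
  have hy3 : 10 ^ 6 * (2 * (d : ℝ) + 3) ^ 4 ≤ y := by
    have a1 : 2 * d + 3 ≤ d ^ 2 := by nlinarith only [hd]
    have a2 : 10 ^ 6 ≤ d ^ 13 := le_trans (by norm_num) (Nat.pow_le_pow_left hd 13)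
    have a3 : 10 ^ 6 * (2 * d + 3) ^ 4 ≤ d ^ 13 * (d ^ 2) ^ 4 :=
      Nat.mul_le_mul a2 (Nat.pow_le_pow_left a1 4)
    rw [← pow_mul, ← pow_add] at a3
    exact_mod_cast a3.trans ((Nat.pow_le_pow_right (by omega) (by norm_num)).trans hy1)
  have hN1 : y ^ 1000000 ≤ n * d := by exact_mod_cast hb.1
  have hN2' : ((n * d : ℕ) : ℝ) ≤ (y : ℝ) ^ 1000001 := by
    rw [pow_succ (y : ℝ) 1000000, mul_comm _ (y : ℝ)]
    exact hb.2.trans (mul_le_mul_of_nonneg_right (le_trans (by norm_num) hy2') (by positivity))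
  have hN2 : n * d ≤ y ^ 1000001 := by exact_mod_cast hN2'
  have hN0 : (0 : ℝ) < (n * d : ℕ) := lt_of_lt_of_le (by positivity) hb.1
  have hyN : y ≤ n * d := (Nat.le_self_pow (by norm_num) y).trans hN1
  have he1 : 1 ≤ 2 * y ^ 668668 := by
    have := Nat.one_le_pow 668668 y (by omega)
    omega
  have he4 : 4 * (2 * y ^ 668668) ≤ n * d := by
    have h1 : y ^ 668668 * y ≤ y ^ 1000000 := by
      rw [← pow_succ]
      exact Nat.pow_le_pow_right (by omega) (by norm_num)
    have h2 : y ^ 668668 * 8 ≤ y ^ 668668 * y := Nat.mul_le_mul_left _ (by omega)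
    omega
  have hq : ((d - 1 : ℕ) : ℝ) = (d : ℝ) - 1 := by rw [Nat.cast_sub (by omega)]; norm_num
  have hη : ((2 * y ^ 668668 : ℕ) : ℝ) = 2 * (y : ℝ) ^ 668668 := by
    rw [Nat.cast_mul, Nat.cast_pow, Nat.cast_ofNat]
  have m0 := parM_pos (q := d - 1) (M := n * d) (by omega) (by omega) he1 he4
  have m1 := parM_upper (q := d - 1) (M := n * d) (e := 2 * y ^ 668668) (by omega) (by omega)
  have m2 := parM_lower (q := d - 1) (M := n * d) (by omega) (by omega) he1 (by omega)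
  rw [← hM, hq, hη] at m1 m2
  rw [← hM] at m0
  have hmar := margin_le (n := n) hy1' (by linarith) hyd' (by rw [← Nat.cast_mul]; exact hb.1)
    (by rw [← Nat.cast_mul]; exact hb.2)
  rw [← Nat.cast_mul] at hmar
  obtain ⟨η, hηdef⟩ : ∃ η : ℝ, η = 2 * (y : ℝ) ^ 668668 / (n * d : ℕ) := ⟨_, rfl⟩
  rw [← hηdef] at m1 m2 hP hmar
  have hη0 : 0 < η := by
    rw [hηdef]
    exact div_pos (mul_pos two_pos (pow_pos hypos _)) hN0
  have hη1 : η ≤ 1 / 100 := by
    rw [hηdef]
    refine (eta_le (le_trans (by norm_num) hy2') hb.1).trans ?_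
    rw [div_le_iff₀ hypos]
    linarith [le_trans (by norm_num : (200 : ℝ) ≤ 10 ^ 30) hy2']
  have m3 := par_m_sq (q := (d : ℝ) - 1) (by linarith) hη0 (by linarith) m1
  have m4 := par_margin (q := (d : ℝ) - 1) (by linarith) m0 hη0 hη1 m2 m1
  rw [sub_add_cancel, ← hP] at m4
  have hpot := matPot2 hd hy2' hy3 hN1 hN2 m0 hηdef m1
  rw [← hP] at hpot
  have hend : (3200 * (d : ℝ)) ^ g * ((y ^ 334333 : ℕ) : ℝ) ^ 2 < (n * d : ℕ) := by
    have a1 : 3200 * d ≤ (d + 1) ^ 7 := by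
      have : 4 ^ 6 ≤ (d + 1) ^ 6 := Nat.pow_le_pow_left (by omega) 6
      rw [pow_succ]
      exact Nat.mul_le_mul (le_trans (by norm_num) this) (Nat.le_succ d)
    have a2 : (3200 * d) ^ g ≤ y ^ 7 := by
      refine (Nat.pow_le_pow_left a1 g).trans ?_
      rw [← pow_mul, Nat.mul_comm, pow_mul]
      exact Nat.pow_le_pow_left g1 7
    have a3 : (3200 * d) ^ g * (y ^ 334333) ^ 2 < n * d := by
      refine (Nat.mul_le_mul_right _ a2).trans_lt (lt_of_lt_of_le ?_ hN1)
      rw [← pow_mul, ← pow_add]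
      exact Nat.pow_lt_pow_right (by omega) (by norm_num)
    exact_mod_cast a3
  have hgood := goodPot2 (by omega) (by omega) g1
    (le_trans (by omega) (Nat.le_self_pow (by norm_num) y))
    ((Nat.pow_le_pow_right (by omega) (by norm_num)).trans hN1)
    (log_le_root (M := 1000000) (by norm_num) hN0 hb.2 (le_trans (by norm_num) hy2')) hend hpot
  refine ⟨g, _, run2 (by linarith) (by rw [hP]; positivity) (by omega) hgood
    fun S => cast_fullPot2 .., g3, ?_, m4.trans ?_⟩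
  · have a1 : n < (d + 1) ^ ((g + 1) * 1000000) := by
      rw [pow_mul]
      exact ((Nat.le_mul_of_pos_right n (by omega)).trans_lt hb3).trans_le
        (Nat.pow_le_pow_left g2 _)
    have a2 := Nat.log_lt_of_lt_pow' (by omega) a1
    omega
  · exact mul_le_mul_of_nonneg_left (by linarith) (by positivity)

theorem two_sqrt_lt {d : ℕ} (hd : 3 ≤ d) : 2 * √((d : ℝ) - 1) < d := by
  have hd' : (3 : ℝ) ≤ d := by exact_mod_cast hd
  have h1 := Real.sq_sqrt (by linarith : (0 : ℝ) ≤ d - 1)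
  refine lt_of_pow_lt_pow_left₀ 2 (by linarith) ?_
  nlinarith

theorem uniform :
    ∃ (out : ℕ × ℕ → List Bool)
      (M : Turing.TM2ComputableInPolyTime
        (fun q : ℕ × ℕ => List.replicate q.1 true ++ false :: List.replicate q.2 true)
        (fun w : List Bool => w) out),
      (∀ k, Finite (M.tm.Γ k)) ∧
      ∀ d n : ℕ, 3 ≤ d → d ^ 10 ^ 8 ≤ n →
        (Even (d * n) → ∃ (G : SimpleGraph (Fin n)) (_ : DecidableRel G.Adj),
          G.IsRegularOfDegree d ∧
          out (d, n) = (List.finRange n).flatMap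
            (fun i => (List.finRange n).map fun j => decide (G.Adj i j)) ∧
          (∀ (μ : ℝ) (x : Fin n → ℝ), x ≠ 0 → ∑ i, x i = 0 →
            (G.adjMatrix ℝ).mulVec x = μ • x →
            |μ| ≤ 2 * √((d : ℝ) - 1) * (1 - (n : ℝ) ^ (-(663 / 1000 : ℝ)))) ∧
          ((Nat.log (d + 1) n / 10 ^ 6 : ℕ) : ℕ∞) < G.egirth ∧
          G.Connected ∧ ¬ G.IsBipartite) ∧
        ∃ (B : SimpleGraph (Fin n ⊕ Fin n)) (_ : DecidableRel B.Adj),
          (∀ i j, ¬ B.Adj (.inl i) (.inl j)) ∧ (∀ i j, ¬ B.Adj (.inr i) (.inr j)) ∧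
          B.IsRegularOfDegree d ∧
          out (d, n) = (List.finRange n).flatMap
            (fun i => (List.finRange n).map fun j => decide (B.Adj (.inl i) (.inr j))) ∧
          (∀ (μ : ℝ) (x : Fin n ⊕ Fin n → ℝ), x ≠ 0 → ∑ i, x (.inl i) = 0 →
            ∑ i, x (.inr i) = 0 → (B.adjMatrix ℝ).mulVec x = μ • x →
            |μ| ≤ 2 * √((d : ℝ) - 1) * (1 - (n : ℝ) ^ (-(663 / 1000 : ℝ)))) ∧
          ((Nat.log (d + 1) n / 10 ^ 6 : ℕ) : ℕ∞) < B.egirth := by
  obtain ⟨M, hM⟩ := exists_machine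
  refine ⟨outU, M, hM, fun d n hd hn => ?_⟩
  obtain ⟨g, lam, h, hg, h1, h2⟩ := pairing_rho hd hn
  have h3 : ((Nat.log (d + 1) n / 10 ^ 6 : ℕ) : ℕ∞) < ((g + 1 : ℕ) : ℕ∞) := by
    exact_mod_cast Nat.lt_succ_of_le h1
  have h4 : lam < d := by
    refine h2.trans_lt (lt_of_le_of_lt (mul_le_of_le_one_right (by positivity) ?_) (two_sqrt_lt hd))
    have : 0 ≤ (n : ℝ) ^ (-(663 / 1000 : ℝ)) := by positivity
    linarith
  have hn0 : 0 < n := lt_of_lt_of_le (Nat.pow_pos (by omega)) hn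
  have : Nonempty (Fin n) := ⟨⟨0, hn0⟩⟩
  refine ⟨fun he => ⟨h.graph hg he, h.decGraph hg he, h.graph_regular hg he, ?_,
    fun μ x a b c => (h.graph_eig hg he μ x a b c).trans h2, h3.trans_le (h.graph_girth hg he),
    connected_of_gap (h.graph_regular hg he) fun x a b c => ?_,
    not_bipartite_of_gap (by omega) (h.graph_regular hg he) fun x a b c => ?_⟩,
    h.cover, h.decCover, fun _ _ => Bool.false_ne_true, fun _ _ => Bool.false_ne_true,
    h.cover_regular hg, ?_, fun μ x a b c e => (h.cover_eig hg μ x a b c e).trans h2,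
    h3.trans_le h.cover_girth⟩
  · rw [outU_eq]
    exact congrArg (fun f => (List.finRange n).flatMap f) (funext fun i =>
      congrArg (fun f => (List.finRange n).map f) (funext fun j => (Bool.decide_eq_true).symm))
  · have := h.graph_eig hg he _ x a b c
    rw [abs_of_nonneg (Nat.cast_nonneg d)] at this
    linarith
  · have := h.graph_eig hg he _ x a b c
    rw [abs_neg, abs_of_nonneg (Nat.cast_nonneg d)] at this
    linarith
  · rw [outU_eq]
    exact congrArg (fun f => (List.finRange n).flatMap f) (funext fun i =>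
      congrArg (fun f => (List.finRange n).map f) (funext fun j => (Bool.decide_eq_true).symm))

end Vale.Agent.N049
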