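import Vale.Agent.P049.Final

/-!
# Short walks along matched half-edges

`Near d N π i u v` says that the vertex `v` is reached from `u` in at most `i` steps.  Matching
only half-edges whose vertices are far apart creates no short closed walk without backtracking.
-/

namespace Vale.Agent.N049

open Finset Vale.Agent.P049

/-- `v` is reached from `u` in at most `i` steps along matched half-edges. -/
def Near (d N : ℕ) (π : ℕ → ℕ) : ℕ → ℕ → ℕ → Prop
  | 0, u, v => u = v
  | i + 1, u, v => Near d N π i u v ∨ ∃ c < N, π c < N ∧ Near d N π i u (c / d) ∧ π c / d = v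

instance decNear (d N : ℕ) (π : ℕ → ℕ) : ∀ i u v, Decidable (Near d N π i u v)
  | 0, u, v => inferInstanceAs (Decidable (u = v))
  | i + 1, u, v => by
    have := decNear d N π i u
    unfold Near
    infer_instance

/-- The partner function is an involution on the matched half-edges. -/
def Invol (N : ℕ) (π : ℕ → ℕ) : Prop := ∀ a < N, π a < N → π (π a) = a

variable {d N : ℕ} {π : ℕ → ℕ}

theorem near_zero {u v : ℕ} : Near d N π 0 u v ↔ u = v := Iff.rfl

theorem near_succ {i u v : ℕ} : Near d N π (i + 1) u v ↔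
    Near d N π i u v ∨ ∃ c < N, π c < N ∧ Near d N π i u (c / d) ∧ π c / d = v := Iff.rfl

theorem Near.mono {i j u v : ℕ} (h : Near d N π i u v) (hij : i ≤ j) : Near d N π j u v := by
  induction j, hij using Nat.le_induction with
  | base => exact h
  | succ j _ ih => exact Or.inl ih

theorem Near.refl (i u : ℕ) : Near d N π i u u :=
  (near_zero.2 rfl : Near d N π 0 u u).mono (Nat.zero_le i)

theorem Near.step {i u c : ℕ} (h : Near d N π i u (c / d)) (hc : c < N) (hp : π c < N) :
    Near d N π (i + 1) u (π c / d) := Or.inr ⟨c, hc, hp, h, rfl⟩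

theorem Near.trans {i j u v w : ℕ} (h : Near d N π i u v) (h' : Near d N π j v w) :
    Near d N π (i + j) u w := by
  induction j generalizing w with
  | zero => rw [← near_zero.1 h']; exact h
  | succ j ih =>
    rcases h' with h' | ⟨c, hc, hp, h1, rfl⟩
    · exact Or.inl (ih h')
    · exact (ih h1).step hc hp

theorem Near.symm (hπ : Invol N π) {i u v : ℕ} (h : Near d N π i u v) : Near d N π i v u := by
  induction i generalizing v with
  | zero => exact (near_zero.1 h).symm
  | succ i ih =>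
    rcases h with h | ⟨c, hc, hp, h1, rfl⟩
    · exact Or.inl (ih h)
    · have h2 : Near d N π 1 (π c / d) (c / d) := by
        have := (Near.refl (d := d) (N := N) (π := π) 0 (π c / d)).step hp
          (by rw [hπ c hc hp]; exact hc)
        rwa [hπ c hc hp] at this
      have := h2.trans (ih h1)
      rwa [Nat.add_comm] at this

theorem near_symm (hπ : Invol N π) (i u v : ℕ) : Near d N π i u v ↔ Near d N π i v u :=
  ⟨Near.symm hπ, Near.symm hπ⟩

theorem near_const {i u v : ℕ} : Near d N (fun _ => N) i u v ↔ u = v := by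
  induction i with
  | zero => rfl
  | succ i ih => rw [near_succ, ih]; simp

theorem Invol.upd (hπ : Invol N π) {a b : ℕ} (ha : a ∈ alive N π) (hb : b ∈ alive N π) :
    Invol N (upd π a b) := by
  obtain ⟨ha1, ha2⟩ := mem_alive.1 ha
  obtain ⟨hb1, hb2⟩ := mem_alive.1 hb
  intro c hc h
  by_cases e1 : c = a
  · subst e1; rw [upd_a, upd_b]
  by_cases e2 : c = b
  · subst e2; rw [upd_b, upd_a]
  rw [upd_of_ne π e1 e2] at h ⊢
  have hi := hπ c hc h
  have f1 : π c ≠ a := by rintro rfl; omega
  have f2 : π c ≠ b := by rintro rfl; omega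
  rw [upd_of_ne π f1 f2, hi]

/-- Short walks after one more pair has been matched. -/
theorem near_upd {a b i u v : ℕ} (h : Near d N (upd π a b) i u v) :
    Near d N π i u v ∨ ∃ j l, j + l + 1 = i ∧
      ((Near d N π j u (a / d) ∧ Near d N π l (b / d) v) ∨
        (Near d N π j u (b / d) ∧ Near d N π l (a / d) v)) := by
  induction i generalizing v with
  | zero => exact Or.inl h
  | succ i ih =>
    rcases h with h | ⟨c, hc, hp, h1, rfl⟩
    · rcases ih h with h | ⟨j, l, e, h | h⟩
      · exact Or.inl (Or.inl h)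
      · exact Or.inr ⟨j, l + 1, by omega, Or.inl ⟨h.1, Or.inl h.2⟩⟩
      · exact Or.inr ⟨j, l + 1, by omega, Or.inr ⟨h.1, Or.inl h.2⟩⟩
    by_cases e1 : c = a
    · subst e1
      rw [upd_a]
      rcases ih h1 with h | ⟨j, l, e, h | h⟩
      · exact Or.inr ⟨i, 0, by omega, Or.inl ⟨h, rfl⟩⟩
      · exact Or.inr ⟨j, l + 1, by omega, Or.inl ⟨h.1, Near.refl _ _⟩⟩
      · exact Or.inl (h.1.mono (by omega))
    by_cases e2 : c = b
    · subst e2
      rw [upd_b]
      rcases ih h1 with h | ⟨j, l, e, h | h⟩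
      · exact Or.inr ⟨i, 0, by omega, Or.inr ⟨h, rfl⟩⟩
      · exact Or.inl (h.1.mono (by omega))
      · exact Or.inr ⟨j, l + 1, by omega, Or.inr ⟨h.1, Near.refl _ _⟩⟩
    rw [upd_of_ne π e1 e2] at hp ⊢
    rcases ih h1 with h | ⟨j, l, e, h | h⟩
    · exact Or.inl (h.step hc hp)
    · exact Or.inr ⟨j, l + 1, by omega, Or.inl ⟨h.1, h.2.step hc hp⟩⟩
    · exact Or.inr ⟨j, l + 1, by omega, Or.inr ⟨h.1, h.2.step hc hp⟩⟩

/-- At most `(d + 1) ^ i` vertices are reached in `i` steps. -/
theorem exists_ball (hd : 0 < d) (i u : ℕ) :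
    ∃ B : Finset ℕ, B.card ≤ (d + 1) ^ i ∧ ∀ v, Near d N π i u v → v ∈ B := by
  induction i with
  | zero => exact ⟨{u}, by simp, fun v h => mem_singleton.2 (near_zero.1 h).symm⟩
  | succ i ih =>
    obtain ⟨B, hB, hB'⟩ := ih
    refine ⟨B ∪ B.biUnion fun w => ((range N).filter fun c => c / d = w).image fun c => π c / d,
      ?_, ?_⟩
    · refine (card_union_le _ _).trans ?_
      have h1 : (B.biUnion fun w =>
          ((range N).filter fun c => c / d = w).image fun c => π c / d).card ≤ B.card * d :=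
        card_biUnion_le.trans ((sum_le_card_nsmul _ _ d fun w _ =>
          card_image_le.trans (card_same_le hd _ _)).trans (by simp))
      rw [pow_succ]
      nlinarith
    · rintro v (h | ⟨c, hc, -, h1, rfl⟩)
      · exact mem_union_left _ (hB' v h)
      · exact mem_union_right _ (mem_biUnion.2 ⟨c / d, hB' _ h1,
          mem_image.2 ⟨c, mem_filter.2 ⟨mem_range.2 hc, rfl⟩, rfl⟩⟩)

theorem card_near_le (hd : 0 < d) (i u : ℕ) (S : Finset ℕ) :
    (S.filter fun e => Near d N π i u (e / d)).card ≤ (d + 1) ^ (i + 1) := by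
  obtain ⟨B, hB, hB'⟩ := exists_ball (N := N) (π := π) hd i u
  have h1 : (S.filter fun e => Near d N π i u (e / d)) ⊆
      B.biUnion fun w => S.filter fun e => e / d = w := fun e he =>
    mem_biUnion.2 ⟨e / d, hB' _ (mem_filter.1 he).2, mem_filter.2 ⟨(mem_filter.1 he).1, rfl⟩⟩
  refine (card_le_card h1).trans (card_biUnion_le.trans
    ((sum_le_card_nsmul _ _ d fun w _ => card_same_le hd _ _).trans ?_))
  rw [smul_eq_mul, pow_succ]
  exact Nat.mul_le_mul hB (Nat.le_succ d)

/-! ### Walks without backtracking -/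

/-- `x 0, …, x (L - 1)` are matched half-edges which form a walk without backtracking. -/
structure Walk (d N : ℕ) (π : ℕ → ℕ) (L : ℕ) (x : ℕ → ℕ) : Prop where
  lt : ∀ i < L, x i < N
  mt : ∀ i < L, π (x i) < N
  nx : ∀ i, i + 1 < L → x (i + 1) / d = π (x i) / d
  nb : ∀ i, i + 1 < L → x (i + 1) ≠ π (x i)

/-- There is no closed walk without backtracking of length between `1` and `g`. -/
def Acyc (d N g : ℕ) (π : ℕ → ℕ) : Prop :=
  ∀ L x, 1 ≤ L → L ≤ g → Walk d N π L x → π (x (L - 1)) / d ≠ x 0 / d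

theorem acyc_const (d N g : ℕ) : Acyc d N g fun _ => N :=
  fun _ _ h1 _ h => absurd (h.mt 0 h1) (lt_irrefl _)

/-- A segment of a walk. -/
theorem Walk.seg {L : ℕ} {x : ℕ → ℕ} (h : Walk d N π L x) (s l : ℕ) (hl : s + l ≤ L) :
    Walk d N π l fun i => x (s + i) :=
  ⟨fun i hi => h.lt _ (by omega), fun i hi => h.mt _ (by omega),
    fun i hi => h.nx (s + i) (by omega), fun i hi => h.nb (s + i) (by omega)⟩

theorem Walk.congr {ρ : ℕ → ℕ} {L : ℕ} {x : ℕ → ℕ} (h : Walk d N ρ L x)
    (e : ∀ i < L, ρ (x i) = π (x i)) : Walk d N π L x :=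
  ⟨h.lt, fun i hi => e i hi ▸ h.mt i hi, fun i hi => e i (by omega) ▸ h.nx i hi,
    fun i hi => e i (by omega) ▸ h.nb i hi⟩

/-- The end of a walk is near its start. -/
theorem Walk.near {L : ℕ} {x : ℕ → ℕ} (h : Walk d N π L x) {i : ℕ} (hi : i < L) :
    Near d N π (i + 1) (x 0 / d) (π (x i) / d) := by
  induction i with
  | zero => exact (Near.refl 0 _).step (h.lt 0 hi) (h.mt 0 hi)
  | succ i ih =>
    refine Near.step ?_ (h.lt _ hi) (h.mt _ hi)
    rw [h.nx i hi]
    exact ih (by omega)

/-- Between the indices `s` and `t` of a `ρ`-walk on which `ρ` agrees with `π`. -/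
theorem Walk.near_between {ρ : ℕ → ℕ} {L : ℕ} {x : ℕ → ℕ} (h : Walk d N ρ L x) {s t : ℕ}
    (hst : s ≤ t) (ht : t ≤ L) (e : ∀ i, s ≤ i → i < t → ρ (x i) = π (x i)) {u v : ℕ}
    (hu : s < t → u = x s / d) (hv : s < t → v = ρ (x (t - 1)) / d) (huv : s = t → u = v) :
    Near d N π (t - s) u v := by
  rcases hst.eq_or_lt with rfl | hlt
  · rw [Nat.sub_self]; exact huv rfl
  have h1 := ((h.seg s (t - s) (by omega)).congr (π := π) fun i hi =>
    e (s + i) (by omega) (by omega)).near (i := t - s - 1) (by omega)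
  have e1 : t - s - 1 + 1 = t - s := by omega
  have e2 : s + (t - s - 1) = t - 1 := by omega
  simp only [e1, e2, Nat.add_zero] at h1
  rw [hu hlt, hv hlt, e (t - 1) (by omega) (by omega)]
  exact h1

/-- The extension lemma: `ρ` extends `π` by a map of a set `T` of half-edges which are pairwise
far apart.  A short closed walk of `ρ` meets `T` exactly once, at a fixed point of `ρ`. -/
theorem Acyc.extend {g : ℕ} (hπ : Acyc d N g π) {ρ : ℕ → ℕ} {T : ℕ → Prop}
    (hT : ∀ a, T a → T (ρ a)) (hρ : ∀ a < N, ¬ T a → ρ a = π a)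
    (far : ∀ a b, T a → T b → Near d N π (g - 1) (a / d) (b / d) → a = b) {L : ℕ} {x : ℕ → ℕ}
    (h1 : 1 ≤ L) (hL : L ≤ g) (h : Walk d N ρ L x) (hc : ρ (x (L - 1)) / d = x 0 / d) :
    ∃ i < L, T (x i) ∧ ρ (x i) = x i ∧ ∀ j < L, T (x j) → j = i := by
  classical
  have e0 : ∀ i < L, ¬ T (x i) → ρ (x i) = π (x i) := fun i hi hn => hρ _ (h.lt i hi) hn
  -- two consecutive indices in `T` are impossible
  have two : ∀ i j, i < j → j < L → T (x i) → T (x j) → False := by
    intro i j hij hj hi hj'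
    have hex : ∃ k, i < k ∧ k < L ∧ T (x k) := ⟨j, hij, hj, hj'⟩
    obtain ⟨k1, k2, k3⟩ := Nat.find_spec hex
    set k := Nat.find hex with hk
    have k4 : ∀ l, i + 1 ≤ l → l < k → ρ (x l) = π (x l) := fun l l1 l2 =>
      e0 l (by omega) fun hl => Nat.find_min hex l2 ⟨by omega, by omega, hl⟩
    have n1 : Near d N π (k - (i + 1)) (ρ (x i) / d) (x k / d) :=
      h.near_between (by omega) k2.le k4 (fun _ => (h.nx i (by omega)).symm)
        (fun _ => by
          have := h.nx (k - 1) (by omega)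
          rwa [Nat.sub_add_cancel (by omega : 1 ≤ k)] at this)
        fun e => by rw [← e]; exact (h.nx i (by omega)).symm
    have e1 : ρ (x i) = x k := far _ _ (hT _ hi) k3 (n1.mono (by omega))
    rcases (by omega : i + 1 = k ∨ i + 1 < k) with e | hlt
    · exact h.nb i (by omega) (by rw [e, e1])
    · have w := (h.seg (i + 1) (k - (i + 1)) (by omega)).congr (π := π) fun l hl =>
        k4 (i + 1 + l) (by omega) (by omega)
      refine hπ _ _ (by omega) (by omega) w ?_
      have e2 : i + 1 + (k - (i + 1) - 1) = k - 1 := by omega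
      have e3 := h.nx (k - 1) (by omega)
      rw [Nat.sub_add_cancel (by omega : 1 ≤ k)] at e3
      simp only [e2, Nat.add_zero]
      rw [← k4 (k - 1) (by omega) (by omega), ← e3, h.nx i (by omega), e1]
  by_cases hex : ∃ i < L, T (x i)
  · obtain ⟨i, hi, hi'⟩ := hex
    have uniq : ∀ j < L, T (x j) → j = i := fun j hj hj' => by
      rcases lt_trichotomy j i with h' | h' | h'
      · exact (two j i h' hi hj' hi').elim
      · exact h'
      · exact (two i j h' hj hi' hj').elim
    refine ⟨i, hi, hi', far _ _ (hT _ hi') hi' ?_, uniq⟩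
    have k4 : ∀ l < L, l ≠ i → ρ (x l) = π (x l) := fun l l1 l2 =>
      e0 l l1 fun hl => l2 (uniq l l1 hl)
    have n1 : Near d N π (L - (i + 1)) (ρ (x i) / d) (x 0 / d) :=
      h.near_between (by omega) le_rfl (fun l l1 l2 => k4 l l2 (by omega))
        (fun _ => (h.nx i (by omega)).symm) (fun _ => hc.symm)
        fun e => by rw [← hc, ← e, Nat.add_sub_cancel]
    have n2 : Near d N π (i - 0) (x 0 / d) (x i / d) :=
      h.near_between (Nat.zero_le i) hi.le (fun l _ l2 => k4 l (by omega) (by omega))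
        (fun _ => rfl)
        (fun _ => by
          have := h.nx (i - 1) (by omega)
          rwa [Nat.sub_add_cancel (by omega : 1 ≤ i)] at this)
        fun e => by rw [← e]
    exact (n1.trans n2).mono (by omega)
  · push Not at hex
    have w := h.congr (π := π) fun i hi => e0 i hi (hex i hi)
    refine absurd ?_ (hπ L x h1 hL w)
    rw [← e0 _ (by omega) (hex _ (by omega)), hc]

theorem Acyc.upd {g : ℕ} (hi : Invol N π) (hπ : Acyc d N g π) {a b : ℕ}
    (hab : ¬ Near d N π (g - 1) (a / d) (b / d)) : Acyc d N g (upd π a b) := by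
  intro L x h1 hL h hc
  have hne : a ≠ b := by rintro rfl; exact hab (Near.refl _ _)
  obtain ⟨i, -, h2, h3, -⟩ := hπ.extend (ρ := P049.upd π a b) (T := fun c => c = a ∨ c = b)
    (by rintro c (rfl | rfl)
        · exact Or.inr (upd_a ..)
        · exact Or.inl (upd_b ..))
    (fun c _ hc => upd_of_ne π (fun e => hc (Or.inl e)) fun e => hc (Or.inr e))
    (by rintro c e (rfl | rfl) (rfl | rfl) hn
        · rfl
        · exact absurd hn hab
        · exact absurd (hn.symm hi) hab
        · rfl) h1 hL h hc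
  rcases h2 with e | e <;> rw [e] at h3
  · rw [upd_a] at h3; exact hne h3.symm
  · rw [upd_b] at h3; exact hne h3

/-- There is no periodic walk without backtracking with period between `1` and `g`. -/
def NoCyc (d N g : ℕ) (ρ : ℕ → ℕ) : Prop :=
  ∀ L (x : ℕ → ℕ), 1 ≤ L → L ≤ g → (∀ i, x i < N) → (∀ i, x (i + 1) / d = ρ (x i) / d) →
    (∀ i, x (i + 1) ≠ ρ (x i)) → (∀ i, x (i + L) = x i) → False

theorem Acyc.noCyc {g : ℕ} (hπ : Acyc d N g π) {ρ : ℕ → ℕ} {T : ℕ → Prop}
    (hT : ∀ a, T a → T (ρ a)) (hρ : ∀ a < N, ¬ T a → ρ a = π a) (hlt : ∀ a < N, ρ a < N)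
    (far : ∀ a b, T a → T b → Near d N π (g - 1) (a / d) (b / d) → a = b) : NoCyc d N g ρ := by
  intro L x h1 hL x1 x2 x3 x4
  have w : ∀ s l, Walk d N ρ l fun i => x (s + i) := fun s l =>
    ⟨fun i _ => x1 _, fun i _ => hlt _ (x1 _), fun i _ => x2 (s + i), fun i _ => x3 (s + i)⟩
  have cl : ∀ s, ρ (x (s + (L - 1))) / d = x (s + 0) / d := fun s => by
    rw [← x2, show s + (L - 1) + 1 = s + L by omega, x4, Nat.add_zero]
  obtain ⟨i, -, i1, i2, -⟩ := hπ.extend hT hρ far h1 hL (w 0 L) (cl 0)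
  simp only [Nat.zero_add] at i1 i2
  rcases h1.eq_or_lt with rfl | h2
  · exact x3 i (by rw [x4, i2])
  obtain ⟨j, -, -, -, j3⟩ := hπ.extend hT hρ far h1 hL (w (i + 1) L) (cl (i + 1))
  have e1 : L - 1 = j := j3 (L - 1) (by omega) (by
    rw [show i + 1 + (L - 1) = i + L by omega, x4]
    exact i1)
  obtain ⟨k, k1, k2, -, -⟩ := hπ.extend hT hρ far (L := L - 1) (by omega) (by omega)
    (w (i + 1) (L - 1)) (by
      rw [← x2, show i + 1 + (L - 1 - 1) + 1 = i + L by omega, x4, Nat.add_zero, x2, i2])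
  have := j3 k (by omega) k2
  omega

theorem NoCyc.noMulti {g : ℕ} {ρ : ℕ → ℕ} (h : NoCyc d N g ρ) (hg : 2 ≤ g)
    (hlt : ∀ a < N, ρ a < N) (hi : ∀ a < N, ρ (ρ a) = a) {a b : ℕ} (ha : a < N) (hb : b < N)
    (e1 : a / d = b / d) (e2 : ρ a / d = ρ b / d) : a = b := by
  by_contra hne
  refine h 2 (fun i => if i % 2 = 0 then a else ρ b) (by norm_num) hg (fun i => ?_) (fun i => ?_)
    (fun i => ?_) fun i => by simp
  · split_ifs
    · exact ha
    · exact hlt b hb
  · rcases Nat.mod_two_eq_zero_or_one i with e | e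
    · simp only [e, if_true, show (i + 1) % 2 ≠ 0 by omega, if_false, e2]
    · simp only [show i % 2 ≠ 0 by omega, if_true, show (i + 1) % 2 = 0 by omega, if_false,
        hi b hb, e1]
  · rcases Nat.mod_two_eq_zero_or_one i with e | e
    · simp only [e, if_true, show (i + 1) % 2 ≠ 0 by omega, if_false]
      intro e3
      exact hne (by rw [← hi a ha, ← e3, hi b hb])
    · simp only [show i % 2 ≠ 0 by omega, if_true, show (i + 1) % 2 = 0 by omega, if_false,
        hi b hb]
      exact hne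

theorem NoCyc.noLoop {g : ℕ} {ρ : ℕ → ℕ} (h : NoCyc d N g ρ) (hg : 1 ≤ g) {a : ℕ} (ha : a < N)
    (hne : ρ a ≠ a) : ρ a / d ≠ a / d := fun e =>
  h 1 (fun _ => a) le_rfl hg (fun _ => ha) (fun _ => e.symm) (fun _ => hne.symm) fun _ => rfl

/-! ### Balls as lists -/

/-- One more step. -/
def growL (d N : ℕ) (π : ℕ → ℕ) (B : List ℕ) : List ℕ :=
  (List.range N).filter fun v => decide (v ∈ B) ||
    (List.range N).any fun c => decide (π c < N ∧ c / d ∈ B ∧ π c / d = v)

/-- The vertices reached from `u` in at most `i` steps. -/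
def ballL (d N : ℕ) (π : ℕ → ℕ) (i u : ℕ) : List ℕ := (growL d N π)^[i] [u]

theorem mem_growL {B : List ℕ} {v : ℕ} : v ∈ growL d N π B ↔
    v < N ∧ (v ∈ B ∨ ∃ c < N, π c < N ∧ c / d ∈ B ∧ π c / d = v) := by
  simp [growL]

theorem Near.lt {i u v : ℕ} (h : Near d N π i u v) (hu : u < N) : v < N := by
  induction i generalizing v with
  | zero => rw [← near_zero.1 h]; exact hu
  | succ i ih =>
    rcases h with h | ⟨c, -, hp, -, rfl⟩
    · exact ih h
    · exact (Nat.div_le_self _ _).trans_lt hp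

theorem mem_ballL {i u v : ℕ} (hu : u < N) : v ∈ ballL d N π i u ↔ Near d N π i u v := by
  induction i generalizing v with
  | zero => simp [ballL, near_zero, eq_comm]
  | succ i ih =>
    unfold ballL at ih ⊢
    rw [Function.iterate_succ_apply', mem_growL]
    simp only [ih]
    exact ⟨fun h => h.2, fun h => ⟨Near.lt (i := i + 1) h hu, h⟩⟩

end Vale.Agent.N049
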