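import Vale.Agent.N049.Cnt

/-!
# The matrix potential with explicit thresholds and with up to `y` forbidden partners
-/

namespace Vale.Agent.N049

open Matrix Finset Vale.Agent.P049

/-- The numerical inequalities can be satisfied as soon as `10 ^ 30 ≤ y`. -/
theorem num_explicit {dF y N k G : ℝ} (big : 10 ^ 30 ≤ y) (hdF : |dF| ≤ y) (hN0 : y ^ 1000000 ≤ N)
    (hN1 : N ≤ y ^ 1000001) (hk0 : y ^ 334333 ≤ k) (hk1 : k ≤ N)
    (hG0 : ((N + y ^ 668668) / (2 * (k + y ^ 668668))) ^ (11 / 20 : ℝ) ≤ G)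
    (hG1 : G ≤ ((N + y ^ 668668) / (k + y ^ 668668)) ^ (11 / 20 : ℝ)) :
    ∃ (P : Pr) (a : Aux), a.ε = 1 / y ^ 4 ∧ a.dF = dF ∧ Num (envY y) P a k G := by
  have hy4 : 4 ≤ y := le_trans (by norm_num) big
  have hy1 : 1 < y := by linarith
  have hy0 : 0 < y := by linarith
  rw [npow_eq_rpow] at hN0 hN1 hk0 hG0 hG1
  obtain ⟨x, rfl⟩ := exists_expo hy1 ((Real.rpow_pos_of_pos hy0 _).trans_le hk0)
  have hx0 := expo_le_of_le hy1 hk0
  have hx1 := expo_le_of_le hy1 (hk1.trans hN1)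
  obtain ⟨X, e1, e2, e3, e4, hM, hE, hU, hL⟩ := exists_ex hx0 hx1
  set M := max x 668668 with hMdef
  have m1 : y ^ x ≤ y ^ M := Real.rpow_le_rpow_of_exponent_le hy1.le (le_max_left _ _)
  have m2 : y ^ (668668 : ℝ) ≤ y ^ M := Real.rpow_le_rpow_of_exponent_le hy1.le (le_max_right _ _)
  have p1 : 0 < y ^ x := Real.rpow_pos_of_pos hy0 _
  have p2 : 0 < y ^ (668668 : ℝ) := Real.rpow_pos_of_pos hy0 _
  have m3 : y ^ M ≤ y ^ x + y ^ (668668 : ℝ) := by
    rcases le_total x 668668 with h | h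
    · rw [hMdef, max_eq_right h]; linarith
    · rw [hMdef, max_eq_left h]; linarith
  have us : Ub y 2 (y ^ x + y ^ (668668 : ℝ)) M := ⟨by positivity, by linarith⟩
  have ls : Lb y 1 (y ^ x + y ^ (668668 : ℝ)) M := ⟨one_pos, by linarith⟩
  have m4 : y ^ (668668 : ℝ) ≤ y ^ (1000001 : ℝ) :=
    Real.rpow_le_rpow_of_exponent_le hy1.le (by norm_num)
  have hN : 0 < N := p1.trans_le hk1
  have uN : Ub y 2 (N + y ^ (668668 : ℝ)) 1000001 := ⟨by positivity, by linarith⟩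
  have lN : Lb y 1 (N + y ^ (668668 : ℝ)) 1000000 := ⟨one_pos, by linarith⟩
  have g1 : (N + y ^ (668668 : ℝ)) / (y ^ x + y ^ (668668 : ℝ)) ≤ y ^ (1000002 - M) :=
    (uN.div hy1.le ls).absorb hy1.le (by linarith) (by linarith)
  have g0 : y ^ (999999 - M) ≤ (N + y ^ (668668 : ℝ)) / (2 * (y ^ x + y ^ (668668 : ℝ))) :=
    (Ub.rpow hy1.le _).le_of_lb hy1.le (lN.div hy1.le (us.cmul (a := 2) (by norm_num))
      (by positivity)) (by linarith) (by linarith)
  have uG : G ≤ y ^ X.gU := by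
    refine hG1.trans ((Real.rpow_le_rpow (by positivity) g1 (by norm_num)).trans (le_of_eq ?_))
    rw [← Real.rpow_mul hy0.le, e3, mul_comm]
  have lG : y ^ X.gL ≤ G := by
    refine le_trans (le_of_eq ?_) ((Real.rpow_le_rpow (by positivity) g0 (by norm_num)).trans hG0)
    rw [← Real.rpow_mul hy0.le, e4, mul_comm]
  have hq : (envY y).q (y ^ x) = y ^ x / (y ^ x + y ^ (668668 : ℝ)) := by
    rw [← npow_eq_rpow]; rfl
  have hε : 1 / y ^ 4 = y ^ (-4 : ℝ) := by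
    rw [Real.rpow_neg hy0.le, ← npow_eq_rpow, one_div]
  have U : ∀ {Q e : ℝ}, Q = y ^ e → Ub y 1 Q e := fun h => h ▸ Ub.rpow hy1.le _
  have L : ∀ {Q e : ℝ}, Q = y ^ e → Lb y 1 Q e := fun h => h ▸ Lb.rpow _
  have F : Fit y (envY y) (X.pr y) (X.aux y dF) (y ^ x) G X :=
    { big := big
      uv := U rfl
      lv := L rfl
      uu := U rfl
      lu := L rfl
      ug := U rfl
      lg := L rfl
      unn := U rfl
      lnn := L rfl
      ue := U rfl
      le := L rfl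
      uf := U rfl
      lf := L rfl
      uR := U rfl
      lR := L rfl
      ulam := U rfl
      llam := L rfl
      udd := U rfl
      ldd := L rfl
      ut := U rfl
      lt := L rfl
      ux0 := U rfl
      lx0 := L rfl
      ux1 := U rfl
      lx1 := L rfl
      uro := U rfl
      lro := L rfl
      uL := U rfl
      lL := L rfl
      utt := U rfl
      ltt := L rfl
      urho := U rfl
      lrho := L rfl
      utau := U rfl
      ltau := L rfl
      uGS := U rfl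
      lGS := L rfl
      uGC := U rfl
      lGC := L rfl
      up := U rfl
      lp := L rfl
      uk := U (by rw [e1])
      lk := L (by rw [e1])
      usk := U (by rw [e1, sqrt_rpow_eq hy0.le])
      lsk := L (by rw [e1, sqrt_rpow_eq hy0.le])
      usR := U (sqrt_rpow_eq hy0.le _)
      uq := by
        rw [hq, e2]
        simpa using (Ub.rpow hy1.le x).div hy1.le ls
      lq := by
        rw [hq, e2]
        simpa using (Lb.rpow x).div hy1.le us (by positivity)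
      ukap := U (npow_eq_rpow y _)
      lkap := L (npow_eq_rpow y _)
      uDb := U (npow_eq_rpow y _)
      lDb := L (npow_eq_rpow y _)
      udb := U (npow_eq_rpow y _)
      ldb := L (npow_eq_rpow y _)
      uSb := U (npow_eq_rpow y _)
      lSb := L (npow_eq_rpow y _)
      uuC := U (npow_eq_rpow y _)
      luC := L (npow_eq_rpow y _)
      uVb := U (npow_eq_rpow y _)
      lVb := L (npow_eq_rpow y _)
      uMu := U (npow_eq_rpow y _)
      lMu := L (npow_eq_rpow y _)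
      ueps := U hε
      leps := L hε
      udF := ⟨abs_nonneg _, by rw [one_mul, Real.rpow_one]; exact hdF⟩
      uG := ⟨(Real.rpow_pos_of_pos hy0 _).le.trans lG, by simpa using uG⟩
      lG := ⟨one_pos, by simpa using lG⟩ }
  refine ⟨X.pr y, X.aux y dF, rfl, rfl, F.num hM (fun h => hE ?_) hU hL⟩
  refine expo_le_of_le hy1 ?_
  rw [← npow_eq_rpow]
  exact h

/-- What has to be proved about the potential `Ψ` for `N` half-edges, with up to `D` forbidden
partners for each half-edge. -/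
structure MatPot2 (d N D : ℕ) (m p y : ℝ) (k₀ : ℕ) (Ψ : ℕ → Stats ℝ → ℝ) : Prop where
  nonneg : ∀ (ι : Type) [Fintype ι] [DecidableEq ι] (A B : Matrix ι ι ℝ), Ker 1 m univ A →
    Ker (-1) m univ B → k₀ ≤ Fintype.card ι + 1 → Fintype.card ι ≤ N →
    0 ≤ Ψ (Fintype.card ι) (mstats A B)
  init : Ψ N (mstats (iniM 1 m p d N) (iniM (-1) m p d N)) ≤ 1 / 2
  step : ∀ (ι : Type) [Fintype ι] [DecidableEq ι] (A B : Matrix ι ι ℝ) (Fb : ι → ι → Prop)
    [DecidableRel Fb], Ker 1 m univ A → Ker (-1) m univ B → (∀ a, Fb a a) →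
    (∀ a b, Fb a b → Fb b a) → (∀ a, (univ.filter (Fb a)).card ≤ D) →
    k₀ < Fintype.card ι → Fintype.card ι ≤ N → Ψ (Fintype.card ι) (mstats A B) ≤ 1 →
    ∃ w : ι → ι → ℝ, (∀ a b, 0 ≤ w a b) ∧ (∀ a b, w a b ≤ 2) ∧ (∀ a b, w a b = w b a) ∧
      (∀ a b, w a b ≠ 0 → ¬ Fb a b ∧ 0 < den 1 A a b ∧ 0 < den (-1) B a b) ∧
      (∀ a, ∑ b, |w a b - 1| ≤ 1 / y * Fintype.card ι) ∧
      ∑ a, ∑ b, w a b * (Ψ (Fintype.card ι - 2) (mstats (stepM 1 A a b) (stepM (-1) B a b)) -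
        Ψ (Fintype.card ι) (mstats A B)) ≤ Fintype.card ι / y
  final : ∀ (ι : Type) [Fintype ι] [DecidableEq ι] (A B : Matrix ι ι ℝ), Ker 1 m univ A →
    Ker (-1) m univ B → k₀ ≤ Fintype.card ι + 1 → Fintype.card ι ≤ k₀ →
    Ψ (Fintype.card ι) (mstats A B) ≤ 1 →
    (∀ x : ι → ℝ, ∑ i, x i = 0 → qf univ A x ≤ ∑ i, x i ^ 2) ∧
      ∀ x : ι → ℝ, ∑ i, x i = 0 → qf univ B x ≤ ∑ i, x i ^ 2

theorem matPot2 {d y n : ℕ} (hd : 3 ≤ d) {m η : ℝ} (hy1 : (10 : ℝ) ^ 30 ≤ y)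
    (hy2 : 10 ^ 6 * (2 * (d : ℝ) + 3) ^ 4 ≤ y) (hN1 : y ^ 1000000 ≤ n * d)
    (hN2 : n * d ≤ y ^ 1000001) (hm0 : 0 < m) (hη : η = 2 * (y : ℝ) ^ 668668 / (n * d : ℕ))
    (hm : ((d : ℝ) - 1) * m ^ 2 ≤ (1 - η) ^ 2) :
    MatPot2 d (n * d) y m (m + 16 * η ^ 2) y (y ^ 334333) (Psi (n * d) (y : ℝ)) := by
  have hy3' : (1000 : ℝ) ≤ y := le_trans (by norm_num) hy1
  have hy3 : 1000 ≤ y := by exact_mod_cast hy3'
  have hy0 : (0 : ℝ) < y := by linarith
  have hN1' : (y : ℝ) ^ 1000000 ≤ (n * d : ℕ) := by exact_mod_cast hN1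
  have hN2' : ((n * d : ℕ) : ℝ) ≤ (y : ℝ) ^ 1000001 := by exact_mod_cast hN2
  have hη0 : 0 ≤ η := by rw [hη]; positivity
  have hη1 : η ≤ 1 := by
    rw [hη]
    refine (eta_le hy3' hN1').trans ?_
    rw [div_le_one hy0]
    linarith
  have hd' : (3 : ℝ) ≤ d := by exact_mod_cast hd
  have hm2 : m ^ 2 ≤ 1 / 2 := by nlinarith [sq_nonneg m]
  have hm1 : m ≤ 1 := by nlinarith
  have hkap : (1 : ℝ) ≤ (y : ℝ) ^ 668668 := one_le_pow₀ (by linarith)
  have hkap0 : (0 : ℝ) < (y : ℝ) ^ 668668 := by positivity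
  have hk2 : 1000 ≤ y ^ 334333 := hy3.trans (Nat.le_self_pow (by norm_num) y)
  refine ⟨fun ι _ _ A B hA hB hk _ => ?_, ?_, fun ι _ _ A B Fb _ hA hB F1 F2 F3 hk hkN hΨ => ?_,
    fun ι _ _ A B hA hB hk hk' hΨ => ?_⟩
  · rw [Psi_mstats]
    exact add_nonneg
      (mSide_nonneg hy0 (gro_pos hkap0 _ _) hm1 (by norm_num) (by norm_num) hA hB (by omega))
      (mSide_nonneg hy0 (gro_pos hkap0 _ _) hm1 (by norm_num) (by norm_num) hB hA (by omega))
  · rw [Psi_mstats, gro_self]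
    have a := mSide_init (s := 1) (s' := -1) hd (by norm_num) (by norm_num) hy2 hN1' hN2' hm0 hη hm
    have b := mSide_init (s := -1) (s' := 1) hd (by norm_num) (by norm_num) hy2 hN1' hN2' hm0 hη hm
    linarith
  · obtain ⟨P, a, ha1, ha2, hN⟩ := num_explicit (dF := y) (k := Fintype.card ι)
      (G := gro ((y : ℝ) ^ 668668) (n * d) (Fintype.card ι)) hy1 (abs_of_pos hy0).le hN1' hN2'
      (by exact_mod_cast hk.le) (by exact_mod_cast hkN) (le_gro hkap hkN) (gro_le hkap0 hkN)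
    rw [Psi_mstats] at hΨ
    obtain ⟨w, w0, w2, ws, wr, wF, wd⟩ := core_step hN
      (gro_step (kap := (y : ℝ) ^ 668668) hkap0 (N := n * d) (k := Fintype.card ι) (by omega) hkN)
      hm0.le hm2 hA hB Fb F1 F2 (fun x => by rw [ha2]; exact_mod_cast F3 x) hΨ
    have hc : ((Fintype.card ι - 2 : ℕ) : ℝ) = (Fintype.card ι : ℝ) - 2 := by
      rw [Nat.cast_sub (by omega)]; norm_num
    have hy4 : 14000 * (1 / (y : ℝ) ^ 4) ≤ 1 / y := by
      rw [mul_one_div, div_le_div_iff₀ (by positivity) hy0]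
      have h3 : (14000 : ℝ) ≤ (y : ℝ) ^ 3 := le_trans (by norm_num)
        (pow_le_pow_left₀ (by norm_num) hy3' 3)
      nlinarith
    have hy5 : 0 < 1 / (y : ℝ) ^ 4 := by positivity
    have hk0 : (0 : ℝ) ≤ Fintype.card ι := Nat.cast_nonneg _
    refine ⟨w, w0, w2, ws, wF, fun x => (wr x).trans ?_, ?_⟩
    · rw [ha1]
      exact mul_le_mul_of_nonneg_right (by linarith) hk0
    · simp only [Psi_mstats, hc]
      refine wd.trans ?_
      rw [ha1, div_eq_mul_one_div (Fintype.card ι : ℝ), mul_comm (Fintype.card ι : ℝ)]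
      exact mul_le_mul_of_nonneg_right hy4 hk0
  · rw [Psi_mstats] at hΨ
    have n1 := mSide_nonneg hy0 (gro_pos hkap0 (n * d) (Fintype.card ι)) hm1 (by norm_num)
      (by norm_num) hA hB (by omega)
    have n2 := mSide_nonneg hy0 (gro_pos hkap0 (n * d) (Fintype.card ι)) hm1 (by norm_num)
      (by norm_num) hB hA (by omega)
    exact ⟨end_side (y := y) (by linarith) (gro_pos hkap0 _ _) hm1 (by norm_num) (by norm_num) hA hB
        (by omega) (by exact_mod_cast hk') (by linarith),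
      end_side (y := y) (by linarith) (gro_pos hkap0 _ _) hm1 (by norm_num) (by norm_num) hB hA
        (by omega) (by exact_mod_cast hk') (by linarith)⟩

/-- The spectral parameter stays below `2 √q` by a margin of order `η ^ 2`. -/
theorem par_margin {q m η : ℝ} (hq : 2 ≤ q) (hm0 : 0 < m) (hη0 : 0 < η) (hη : η ≤ 1 / 100)
    (h1 : (1 - 2 * η) ^ 2 ≤ q * m ^ 2) (h2 : q * m ^ 2 ≤ (1 - η) ^ 2) :
    m * (q + 1) + (1 - m ^ 2) / (m + 16 * η ^ 2) ≤ 2 * √q * (1 - η ^ 2) := by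
  have hq0 : 0 ≤ q := by linarith
  have hv2 : √q ^ 2 = q := Real.sq_sqrt hq0
  have hv0 : 0 ≤ √q := Real.sqrt_nonneg q
  have hm2 : m ^ 2 ≤ 1 / 2 := par_m_sq hq hη0 (by linarith) h2
  generalize √q = v at hv2 hv0 ⊢
  obtain ⟨u, hu⟩ : ∃ u, u = m * v := ⟨_, rfl⟩
  have hu2 : u ^ 2 = q * m ^ 2 := by rw [hu, mul_pow, hv2]; ring
  have hu0 : 0 ≤ u := by rw [hu]; positivity
  have hu1 : 1 - 2 * η ≤ u := by
    refine abs_le_of_sq_le_sq' ?_ hu0 |>.2
    rw [hu2]; exact h1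
  have hu3 : u ≤ 1 - η := by
    refine abs_le_of_sq_le_sq' ?_ (by linarith) |>.2
    rw [hu2]; exact h2
  have e : 2 * v * (1 - η ^ 2) - m * (q + 1) = (1 - m ^ 2 - ((1 - u) ^ 2 + 2 * u * η ^ 2)) / m := by
    rw [eq_div_iff hm0.ne', hu, ← hv2]
    ring
  have hm1 : m ≤ 3 / 4 := by nlinarith only [hm2, hm0]
  have h3 : (1 - u) ^ 2 ≤ 4 * η ^ 2 := by nlinarith only [hu1, hu3, hη0]
  have h4 : η ^ 2 ≤ 1 / 10000 := by nlinarith only [hη, hη0]
  have hp : 0 < m + 16 * η ^ 2 := by positivity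
  have h8 : u * η ^ 2 ≤ η ^ 2 := mul_le_of_le_one_left (sq_nonneg η) (by linarith)
  have h9 : 0 ≤ (1 - u) ^ 2 + 2 * u * η ^ 2 := by positivity
  have h5 : (1 - u) ^ 2 + 2 * u * η ^ 2 ≤ 6 * η ^ 2 := by linarith
  rw [← le_sub_iff_add_le', div_le_iff₀ hp, e, div_mul_eq_mul_div, le_div_iff₀ hm0]
  generalize (1 - u) ^ 2 + 2 * u * η ^ 2 = X at h5 h9 ⊢
  have h6 : m * X ≤ 3 / 4 * (6 * η ^ 2) := mul_le_mul hm1 h5 h9 (by norm_num)
  have h7 : 16 * η ^ 2 * (2 / 5) ≤ 16 * η ^ 2 * (1 - m ^ 2 - X) :=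
    mul_le_mul_of_nonneg_left (by linarith) (by positivity)
  nlinarith only [h6, h7, sq_nonneg η]

end Vale.Agent.N049
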