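import Vale.Agent.N049.Num

/-!
# The greedy algorithm which avoids short cycles
-/

namespace Vale.Agent.N049

open Finset Vale.Agent.P049 Vale.Agent.Lib.PolyTime Vale.Agent.P315.H155

/-- The full potential. -/
def fullPot2 {K : Type*} [Field K] (d N g : ℕ) (y : K) (Ψ : ℕ → Stats K → K) (π : ℕ → ℕ)
    (A B : ℕ → ℕ → K) : K :=
  Ψ (alive N π).card (kstats N A B) +
    cntG d N g (1 / (3200 * (d : K))) π / (20 * d / N * ((alive N π).card : K) ^ 2) +
    200 / y * ∑ j ∈ range (alive N π).card, 1 / ((j : K) + 1) + (alive N π).card / (10 * N)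

/-- What has to be proved about the potential `Φ`. -/
structure GoodPot2 (d n g : ℕ) (m p : ℝ) (k : ℕ)
    (Φ : (ℕ → ℕ) → (ℕ → ℕ → ℝ) → (ℕ → ℕ → ℝ) → ℝ) : Prop where
  init : Φ (fun _ => n * d) (res (range (n * d)) (ini 1 m p d (n * d)))
    (res (range (n * d)) (ini (-1) m p d (n * d))) ≤ 1
  step : ∀ π A B, Invol (n * d) π → Ker 1 m (alive (n * d) π) A →
    Ker (-1) m (alive (n * d) π) B → n * d + 2 ≤ (alive (n * d) π).card + 2 * k → Φ π A B ≤ 1 →
    ∃ a ∈ alive (n * d) π, ∃ b ∈ alive (n * d) π,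
      ¬ Near d (n * d) π (g - 1) (a / d) (b / d) ∧ 0 < den 1 A a b ∧
      0 < den (-1) B a b ∧ Φ (upd π a b) (res (rest (alive (n * d) π) a b) (nxt 1 A a b))
        (res (rest (alive (n * d) π) a b) (nxt (-1) B a b)) ≤ Φ π A B
  final : ∀ π A B, Ker 1 m (alive (n * d) π) A →
    Ker (-1) m (alive (n * d) π) B → (alive (n * d) π).card + 2 * k = n * d → Φ π A B ≤ 1 →
    (∀ x : ℕ → ℝ, ∑ i ∈ alive (n * d) π, x i = 0 →
      qf (alive (n * d) π) A x ≤ ∑ i ∈ alive (n * d) π, x i ^ 2) ∧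
    (∀ x : ℕ → ℝ, ∑ i ∈ alive (n * d) π, x i = 0 →
      qf (alive (n * d) π) B x ≤ ∑ i ∈ alive (n * d) π, x i ^ 2) ∧
    ∀ a ∈ alive (n * d) π, ∀ b ∈ alive (n * d) π,
      Near d (n * d) π (g - 1) (a / d) (b / d) → a = b

theorem goodPot2 {d n g D k₀ : ℕ} {m p y : ℝ} {Ψ : ℕ → Stats ℝ → ℝ} (hd : 0 < d) (hg : 1 ≤ g)
    (hD : (d + 1) ^ g ≤ D) (hk4 : 4 ≤ k₀) (hkN : k₀ ≤ n * d)
    (hy : 1000 * (1 + Real.log (n * d : ℕ)) ≤ y)
    (hend : (3200 * (d : ℝ)) ^ g * k₀ ^ 2 < (n * d : ℕ))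
    (h : MatPot2 d (n * d) D m p y k₀ Ψ) :
    GoodPot2 d n g m p ((n * d - k₀ + 1) / 2) (fullPot2 d (n * d) g y Ψ) := by
  obtain ⟨N, hNdef⟩ : ∃ N, N = n * d := ⟨_, rfl⟩
  rw [← hNdef] at hkN hy hend h
  have hN4 : 4 ≤ N := hk4.trans hkN
  have hN0 : (0 : ℝ) < N := by exact_mod_cast (by omega : 0 < N)
  have hd1 : (1 : ℝ) ≤ d := by exact_mod_cast hd
  have hlog : 0 ≤ Real.log N := Real.log_natCast_nonneg N
  have hy1 : 1000 ≤ y := by linarith
  have hy0 : 0 < y := by linarith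
  have hlam : (0 : ℝ) < 20 * d / N := by positivity
  have ht : (0 : ℝ) ≤ 1 / (3200 * d) := by positivity
  have parts : ∀ π A B, Ker 1 m (alive N π) A → Ker (-1) m (alive N π) B →
      k₀ ≤ (alive N π).card + 1 → fullPot2 d N g y Ψ π A B ≤ 1 →
      Ψ (Fintype.card (alive N π)) (mstats (subM _ A) (subM (alive N π) B)) ≤ 1 ∧
      cntG d N g (1 / (3200 * (d : ℝ))) π ≤ 20 * d / N * ((alive N π).card : ℝ) ^ 2 := by
    intro π A B hA hB hk h1
    have hc : (0 : ℝ) < (alive N π).card := by exact_mod_cast (by omega : 0 < (alive N π).card)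
    have h0 := h.nonneg _ _ _ hA.subM hB.subM (by rwa [Fintype.card_coe])
      (by rw [Fintype.card_coe]; exact card_alive_le N π)
    unfold fullPot2 at h1
    rw [kstats_eq (alive_subset N π) hA.toSupp hB.toSupp] at h1
    rw [Fintype.card_coe] at h0 ⊢
    have n1 : 0 ≤ cntG d N g (1 / (3200 * (d : ℝ))) π /
        (20 * d / N * ((alive N π).card : ℝ) ^ 2) := div_nonneg (cntG_nonneg ht) (by positivity)
    have n2 : 0 ≤ ((alive N π).card : ℝ) / (10 * N) := by positivity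
    have n3 : 0 ≤ 200 / y * ∑ j ∈ range (alive N π).card, 1 / ((j : ℝ) + 1) :=
      mul_nonneg (by positivity) (harm_nonneg _)
    refine ⟨by linarith, ?_⟩
    rw [← div_le_one (by positivity)]
    linarith
  refine ⟨?_, ?_, ?_⟩ <;> rw [← hNdef]
  · have h1 := h.init
    unfold fullPot2
    rw [kstats_eq subset_rfl (supp_res subset_rfl _) (supp_res subset_rfl _), subM_res, subM_res,
      alive_const, card_range]
    have b1 := cntG_le_ini (N := N) (g := g) hd ht
      (one_div_le_one_div_of_le (by norm_num) (by linarith))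
    have b3 : cntG d N g (1 / (3200 * (d : ℝ))) (fun _ => N) / (20 * d / N * (N : ℝ) ^ 2) ≤
        1 / 10 := by
      rw [div_le_iff₀ (by positivity)]
      exact b1.trans (le_of_eq (by field_simp; ring))
    have b4 : (N : ℝ) / (10 * N) = 1 / 10 := by field_simp
    have b5 : 200 / y * ∑ j ∈ range N, 1 / ((j : ℝ) + 1) ≤ 1 / 5 := by
      refine (mul_le_mul_of_nonneg_left (harm_le N) (by positivity)).trans ?_
      rw [div_mul_eq_mul_div, div_le_iff₀ hy0]
      linarith
    unfold iniM at h1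
    linarith
  · intro π A B hπ hA hB hk h1
    have hkk : k₀ < (alive N π).card := by omega
    obtain ⟨p1, p2⟩ := parts π A B hA hB (by omega) h1
    have hFb : ∀ a : alive N π, (univ.filter fun b : alive N π =>
        Near d N π (g - 1) (a / d) (b / d)).card ≤ D := fun a => by
      refine le_trans ?_ ((card_near_le (N := N) (π := π) hd (g - 1) (a / d) (alive N π)).trans
        (by rwa [Nat.sub_add_cancel hg]))
      refine card_le_card_of_injOn (fun b => (b : ℕ)) (fun b hb => ?_)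
        (fun b _ c _ hbc => Subtype.ext hbc)
      exact mem_coe.2 (mem_filter.2 ⟨b.2, (mem_filter.1 (mem_coe.1 hb)).2⟩)
    obtain ⟨w, w0, w2, ws, wF, wr, wd⟩ := h.step (alive N π) (subM _ A) (subM _ B)
      (fun a b => Near d N π (g - 1) (a / d) (b / d)) hA.subM hB.subM (fun a => Near.refl ..)
      (fun a b hab => hab.symm hπ) hFb (by rwa [Fintype.card_coe])
      (by rw [Fintype.card_coe]; exact card_alive_le N π) p1
    have hc4 : 4 ≤ Fintype.card (alive N π) := by rw [Fintype.card_coe]; omega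
    have d1 := drift_cntG ht hπ (by positivity : 0 ≤ 1 / y) w0 w2 ws wr
      (fun a b hab => (wF a b hab).1) hc4 hlam (by rw [Fintype.card_coe]; exact p2)
    have hZ := total_ge wr
    rw [Fintype.card_coe] at d1 hZ wd hc4
    set k := (alive N π).card with hkdef
    have hk4' : (4 : ℝ) ≤ k := by exact_mod_cast hc4
    have hy2 : 1 / y ≤ 1 / 2 := one_div_le_one_div_of_le (by norm_num) (by linarith)
    have hZ2 : (k : ℝ) ^ 2 / 2 ≤ ∑ a, ∑ b, w a b := by nlinarith
    have key : ∑ a : alive N π, ∑ b : alive N π, w a b * (fullPot2 d N g y Ψ (upd π a b)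
        (res (rest (alive N π) a b) (nxt 1 A a b)) (res (rest (alive N π) a b) (nxt (-1) B a b)) -
        fullPot2 d N g y Ψ π A B) ≤ 0 := by
      have e1 : ∀ a b : alive N π, w a b * (fullPot2 d N g y Ψ (upd π a b)
          (res (rest (alive N π) a b) (nxt 1 A a b))
          (res (rest (alive N π) a b) (nxt (-1) B a b)) - fullPot2 d N g y Ψ π A B) ≤
          w a b * (Ψ (k - 2) (mstats (stepM 1 (subM _ A) a b) (stepM (-1) (subM _ B) a b)) -
            Ψ k (mstats (subM _ A) (subM (alive N π) B))) +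
          w a b * (cntG d N g (1 / (3200 * (d : ℝ))) (upd π a b) /
            (20 * d / N * ((k : ℝ) - 2) ^ 2) -
            cntG d N g (1 / (3200 * (d : ℝ))) π / (20 * d / N * (k : ℝ) ^ 2)) -
          w a b * (200 / y / k + 1 / (5 * N)) := by
        intro a b
        by_cases h0 : w a b = 0
        · simp [h0]
        have hab : (a : ℕ) ≠ b := fun e => (wF a b h0).1 (by rw [e]; exact Near.refl ..)
        have hcard : (alive N (upd π a b)).card = k - 2 := by
          rw [alive_upd (mem_alive.1 a.2).1 (mem_alive.1 b.2).1]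
          have := card_rest a.2 b.2 hab
          omega
        have hcast : ((k - 2 : ℕ) : ℝ) = (k : ℝ) - 2 := by rw [Nat.cast_sub (by omega)]; norm_num
        have hh : ∑ j ∈ range (k - 2), 1 / ((j : ℝ) + 1) + 1 / (k : ℝ) ≤
            ∑ j ∈ range k, 1 / ((j : ℝ) + 1) := by
          obtain ⟨l, hl⟩ : ∃ l, k = l + 2 := ⟨k - 2, by omega⟩
          rw [hl, sum_range_succ, sum_range_succ, Nat.add_sub_cancel]
          have : 0 ≤ 1 / ((l : ℝ) + 1) := by positivity
          have e : ((l + 1 : ℕ) : ℝ) + 1 = ((l + 2 : ℕ) : ℝ) := by push_cast; ring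
          rw [e]
          linarith
        unfold fullPot2
        rw [hcard, hcast, ← hkdef, kstats_eq (alive_subset N π) hA.toSupp hB.toSupp,
          kstats_eq (alive_subset N π) (supp_res (rest_subset _ _ _) _)
            (supp_res (rest_subset _ _ _) _), subM_next', subM_next', ← mul_add, ← mul_sub]
        refine mul_le_mul_of_nonneg_left ?_ (w0 a b)
        have := mul_le_mul_of_nonneg_left hh (by positivity : 0 ≤ 200 / y)
        have e : 200 / y / k = 200 / y * (1 / k) := by ring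
        have e' : ((k : ℝ) - 2) / (10 * N) = k / (10 * N) - 1 / (5 * N) := by field_simp; ring
        rw [e, e']
        linarith
      refine (sum_le_sum fun a _ => sum_le_sum fun b _ => e1 a b).trans ?_
      simp only [sum_add_distrib, sum_sub_distrib, ← sum_mul]
      have e2 : 16 * (1 / (3200 * (d : ℝ))) * (20 * d / N) * (k : ℝ) ^ 2 = k ^ 2 / (10 * N) := by
        field_simp
        ring
      have e3 : 100 * (k / y) + k ^ 2 / (10 * N) ≤
          (∑ a, ∑ b, w a b) * (200 / y / k + 1 / (5 * N)) := by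
        have e : 100 * (k / y) + k ^ 2 / (10 * N) =
            (k : ℝ) ^ 2 / 2 * (200 / y / k + 1 / (5 * N)) := by field_simp; ring
        rw [e]
        exact mul_le_mul_of_nonneg_right hZ2 (by positivity)
      have e4 : 32 * (1 / y) * k = 32 * (k / y) := by ring
      have e5 : 0 ≤ k / y := by positivity
      rw [e4, e2] at d1
      linarith
    obtain ⟨a, b, hw, hab⟩ := exists_le_of_avg w0 (by nlinarith) key
    obtain ⟨f1, f2, f3⟩ := wF a b hw
    exact ⟨a, a.2, b, b.2, f1, f2, f3, by linarith⟩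
  · intro π A B hA hB hk h1
    obtain ⟨p1, p3⟩ := parts π A B hA hB (by omega) h1
    obtain ⟨f1, f2⟩ := h.final _ _ _ hA.subM hB.subM (by rw [Fintype.card_coe]; omega)
      (by rw [Fintype.card_coe]; omega) p1
    refine ⟨qf_le_of_subM f1, qf_le_of_subM f2, fun a ha b hb hab =>
      far_of_cntG_lt ht hg (p3.trans_lt ?_) ha hb hab⟩
    have hc : ((alive N π).card : ℝ) ≤ k₀ := by exact_mod_cast (by omega : (alive N π).card ≤ k₀)
    have hc2 : ((alive N π).card : ℝ) ^ 2 ≤ (k₀ : ℝ) ^ 2 := by gcongr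
    refine (mul_le_mul_of_nonneg_left hc2 hlam.le).trans_lt ?_
    rw [div_mul_eq_mul_div, one_div_pow, div_lt_div_iff₀ hN0 (by positivity), one_mul]
    refine lt_of_le_of_lt ?_ hend
    obtain ⟨l, rfl⟩ : ∃ l, g = l + 1 := ⟨g - 1, by omega⟩
    rw [Nat.add_sub_cancel, pow_succ (3200 * (d : ℝ))]
    have : 0 ≤ (3200 * (d : ℝ)) ^ l * (d * (k₀ : ℝ) ^ 2) := by positivity
    nlinarith

/-! ### The algorithm -/

/-- The test for a pair. -/
def ok2 (d N g : ℕ) (P : St → ℚ) (S : St) (a b : ℕ) : Prop :=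
  N ≤ look N S.1 a ∧ N ≤ look N S.1 b ∧
    ¬ (a < N ∧ Near d N (look N S.1) (g - 1) (a / d) (b / d)) ∧
    0 < den 1 (mat S.2.1) a b ∧ 0 < den (-1) (mat S.2.2) a b ∧
    P (resSt N (nextSt N S a b)) ≤ P (resSt N S)

instance (d N g : ℕ) (P : St → ℚ) (S : St) (a b : ℕ) : Decidable (ok2 d N g P S a b) := by
  unfold ok2; infer_instance

/-- One step of the algorithm. -/
def step2 (d N g : ℕ) (P : St → ℚ) (S : St) : St :=
  ((pairs N).find? fun p => decide (ok2 d N g P S p.1 p.2)).elim S fun p => nextSt N S p.1 p.2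

theorem step2_cases (d N g : ℕ) (P : St → ℚ) (S : St) :
    (step2 d N g P S = S ∧ ∀ a < N, ∀ b < N, ¬ ok2 d N g P S a b) ∨
      ∃ a < N, ∃ b < N, ok2 d N g P S a b ∧ step2 d N g P S = nextSt N S a b := by
  unfold step2
  cases h : (pairs N).find? fun p => decide (ok2 d N g P S p.1 p.2) with
  | none =>
    refine Or.inl ⟨rfl, fun a ha b hb => ?_⟩
    simpa using List.find?_eq_none.1 h (a, b) (mem_pairs.2 ⟨ha, hb⟩)
  | some p =>
    have h1 := mem_pairs.1 (List.mem_of_find?_eq_some h)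
    exact Or.inr ⟨p.1, h1.1, p.2, h1.2, by simpa using List.find?_some h, rfl⟩

theorem wf_next2 {N : ℕ} {A₀ B₀ : ℕ → ℕ → ℚ} {S : St} (h : Wf N A₀ B₀ S) {d g : ℕ} {P : St → ℚ}
    {a b : ℕ} (ha : a < N) (hb : b < N) (hok : ok2 d N g P S a b) :
    Wf N A₀ B₀ (nextSt N S a b) := by
  obtain ⟨h1, h2, h3, h4, h5, -⟩ := hok
  refine h.next (d := 1) (P := fun _ => 0) (δ := 0) ha hb ⟨h1, h2, ?_, h4, h5, by simp⟩
  rintro (e | ⟨c, -, e1, e2, -⟩)
  · simp only [Nat.div_one] at e
    exact h3 ⟨ha, by rw [e]; exact Near.refl ..⟩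
  · simp only [Nat.div_one] at e2
    rw [e2] at e1
    omega

theorem wf_iterate2 {N : ℕ} {A₀ B₀ : ℕ → ℕ → ℚ} {S : St} (h : Wf N A₀ B₀ S) (d g : ℕ)
    (P : St → ℚ) (j : ℕ) : Wf N A₀ B₀ ((step2 d N g P)^[j] S) := by
  induction j with
  | zero => exact h
  | succ j ih =>
    rw [Function.iterate_succ_apply']
    rcases step2_cases d N g P ((step2 d N g P)^[j] S) with ⟨e, -⟩ | ⟨a, ha, b, hb, hok, e⟩
    · rw [e]; exact ih
    · rw [e]; exact wf_next2 ih ha hb hok

/-- The invariant of the run. -/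
structure Good2 (d n g : ℕ) (m p : ℚ) (Φ : (ℕ → ℕ) → (ℕ → ℕ → ℝ) → (ℕ → ℕ → ℝ) → ℝ)
    (j : ℕ) (S : St) : Prop where
  wf : Wf (n * d) (ini 1 m p d (n * d)) (ini (-1) m p d (n * d)) S
  inv : Invol (n * d) (look (n * d) S.1)
  acyc : Acyc d (n * d) g (look (n * d) S.1)
  kA : Ker 1 m (alive (n * d) (look (n * d) S.1)) (kerA (n * d) S)
  kB : Ker (-1) m (alive (n * d) (look (n * d) S.1)) (kerB (n * d) S)
  sA : Spec d n 1 m ((1 - m ^ 2) / p) (look (n * d) S.1) (kerA (n * d) S)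
  sB : Spec d n (-1) m ((1 - m ^ 2) / p) (look (n * d) S.1) (kerB (n * d) S)
  card : (alive (n * d) (look (n * d) S.1)).card + 2 * j = n * d
  pot : Φ (look (n * d) S.1) (kerA (n * d) S) (kerB (n * d) S) ≤ 1

theorem Good2.step {d n g k : ℕ} {m p : ℚ} {Φ : (ℕ → ℕ) → (ℕ → ℕ → ℝ) → (ℕ → ℕ → ℝ) → ℝ}
    (hm : (m : ℝ) ^ 2 < 1) (hΦ : GoodPot2 d n g m p k Φ) {P : St → ℚ}
    (hP : ∀ S : St, (P S : ℝ) = Φ (look (n * d) S.1) (cst (mat S.2.1)) (cst (mat S.2.2)))
    {j : ℕ} (hj : j < k) {S : St} (h : Good2 d n g m p Φ j S) :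
    Good2 d n g m p Φ (j + 1) (step2 d (n * d) g P S) := by
  have hP' : ∀ S : St, (P (resSt (n * d) S) : ℝ) =
      Φ (look (n * d) S.1) (kerA (n * d) S) (kerB (n * d) S) := fun S => by
    rw [hP, cst_resSt_A, cst_resSt_B]; rfl
  have hdA : ∀ a ∈ alive (n * d) (look (n * d) S.1), ∀ b ∈ alive (n * d) (look (n * d) S.1),
      (0 < den 1 (mat S.2.1) a b ↔ 0 < den 1 (kerA (n * d) S) a b) := fun a ha b hb => by
    rw [kerA, den_res _ _ ha hb, ← Rat.cast_pos (K := ℝ), cst_den, Rat.cast_one]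
  have hdB : ∀ a ∈ alive (n * d) (look (n * d) S.1), ∀ b ∈ alive (n * d) (look (n * d) S.1),
      (0 < den (-1) (mat S.2.2) a b ↔ 0 < den (-1) (kerB (n * d) S) a b) := fun a ha b hb => by
    rw [kerB, den_res _ _ ha hb, ← Rat.cast_pos (K := ℝ), cst_den, Rat.cast_neg, Rat.cast_one]
  rcases step2_cases d (n * d) g P S with ⟨-, hno⟩ | ⟨a, ha1, b, hb1, hok, e⟩
  · exfalso
    have hcard := h.card
    obtain ⟨a, ha, b, hb, f1, f2, f3, f4⟩ := hΦ.step _ _ _ h.inv h.kA h.kB (by omega) h.pot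
    refine hno a (mem_alive.1 ha).1 b (mem_alive.1 hb).1 ⟨(mem_alive.1 ha).2, (mem_alive.1 hb).2,
      fun f => f1 f.2, (hdA a ha b hb).2 f2, (hdB a ha b hb).2 f3, ?_⟩
    rw [← Rat.cast_le (K := ℝ), hP', hP', h.wf.kerA_next ha hb, h.wf.kerB_next ha hb,
      h.wf.look_next (mem_alive.1 ha).1 (mem_alive.1 hb).1]
    exact f4
  · rw [e]
    have hwf := wf_next2 h.wf ha1 hb1 hok
    obtain ⟨h1, h2, h3, h4, h5, h6⟩ := hok
    have ha : a ∈ alive (n * d) (look (n * d) S.1) := mem_alive.2 ⟨ha1, h1⟩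
    have hb : b ∈ alive (n * d) (look (n * d) S.1) := mem_alive.2 ⟨hb1, h2⟩
    have h3' : ¬ Near d (n * d) (look (n * d) S.1) (g - 1) (a / d) (b / d) := fun f => h3 ⟨ha1, f⟩
    have hab : a ≠ b := fun e => h3' (by rw [e]; exact Near.refl ..)
    rw [hdA a ha b hb] at h4
    rw [hdB a ha b hb] at h5
    rw [← Rat.cast_le (K := ℝ), hP', hP'] at h6
    refine ⟨hwf, ?_, ?_, ?_, ?_, ?_, ?_, ?_, h6.trans h.pot⟩
    · rw [h.wf.look_next ha1 hb1]; exact h.inv.upd ha hb
    · rw [h.wf.look_next ha1 hb1]; exact Acyc.upd h.inv h.acyc h3'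
    · rw [h.wf.kerA_next ha hb, h.wf.look_next ha1 hb1, alive_upd ha1 hb1]
      exact h.kA.step (by norm_num) hm ha hb hab h4
    · rw [h.wf.kerB_next ha hb, h.wf.look_next ha1 hb1, alive_upd ha1 hb1]
      exact h.kB.step (by norm_num) hm ha hb hab h5
    · rw [h.wf.kerA_next ha hb, h.wf.look_next ha1 hb1]
      exact h.sA.step (by norm_num) hm h.kA ha hb hab h4
    · rw [h.wf.kerB_next ha hb, h.wf.look_next ha1 hb1]
      exact h.sB.step (by norm_num) hm h.kB ha hb hab h5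
    · rw [h.wf.look_next ha1 hb1, alive_upd ha1 hb1]
      have := card_rest ha hb hab
      have := h.card
      omega

/-! ### The final matching -/

/-- The neighbour of `a` in a list which is cut into consecutive pairs; a last unpaired element
is its own neighbour. -/
def mate2 (l : List ℕ) (a : ℕ) : ℕ :=
  l.getD (if posL l a % 2 = 0 then posL l a + 1 else posL l a - 1) a

theorem mate2_spec {l : List ℕ} (hl : l.Nodup) {a : ℕ} (ha : a ∈ l) :
    mate2 l a ∈ l ∧ mate2 l (mate2 l a) = a ∧ (l.length % 2 = 0 → mate2 l a ≠ a) := by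
  have key : ∀ i (hi : i < l.length), ∃ j, ∃ hj : j < l.length, mate2 l l[i] = l[j] ∧
      j = if i % 2 = 0 then (if i + 1 < l.length then i + 1 else i) else i - 1 := fun i hi => by
    have hj : (if i % 2 = 0 then (if i + 1 < l.length then i + 1 else i) else i - 1) <
        l.length := by split_ifs <;> omega
    refine ⟨_, hj, ?_, rfl⟩
    unfold mate2
    rw [posL_eq, hl.idxOf_getElem]
    by_cases h1 : i % 2 = 0
    · by_cases h2 : i + 1 < l.length
      · simp only [h1, h2, if_true]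
        exact List.getD_eq_getElem _ _ h2
      · simp only [h1, h2, if_true, if_false]
        exact List.getD_eq_default _ _ (by omega)
    · simp only [h1, if_false]
      exact List.getD_eq_getElem _ _ (by omega)
  obtain ⟨i, hi, rfl⟩ := List.getElem_of_mem ha
  obtain ⟨j, hj, e1, e2⟩ := key i hi
  obtain ⟨k, hk, e3, e4⟩ := key j hj
  rw [e1, e3]
  refine ⟨List.getElem_mem _, ?_, fun he h => ?_⟩
  · have : k = i := by split_ifs at e2 e4 <;> omega
    subst this
    rfl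
  · have := (hl.getElem_inj_iff).1 h
    split_ifs at e2 <;> omega

/-- The completed partner function. -/
def complete2 (N : ℕ) (l : List ℕ) (a : ℕ) : ℕ :=
  if look N l a < N then look N l a else mate2 (aliveL N l) a

theorem complete2_dead {N : ℕ} {l : List ℕ} {a : ℕ} (ha : a < N) (h : a ∉ alive N (look N l)) :
    complete2 N l a = look N l a := by
  rw [mem_alive] at h
  exact if_pos (by omega)

theorem complete2_alive {N : ℕ} {l : List ℕ} {a : ℕ} (ha : a ∈ alive N (look N l)) :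
    complete2 N l a ∈ alive N (look N l) ∧ complete2 N l (complete2 N l a) = a ∧
      ((alive N (look N l)).card % 2 = 0 → complete2 N l a ≠ a) := by
  have e : ∀ c ∈ alive N (look N l), complete2 N l c = mate2 (aliveL N l) c := fun c hc =>
    if_neg (not_lt.2 (mem_alive.1 hc).2)
  obtain ⟨h1, h2, h3⟩ := mate2_spec (nodup_aliveL N l) (mem_aliveL.2 ha)
  rw [e a ha, e _ (mem_aliveL.1 h1), ← length_aliveL]
  exact ⟨mem_aliveL.1 h1, h2, h3⟩

/-- `ρ` is an involution of the half-edges without short cycles, without fixed points if their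
number is even, whose quadratic form is at most `lam` on vectors of sum zero. -/
structure Pairing (d n g : ℕ) (lam : ℝ) (ρ : ℕ → ℕ) : Prop where
  lt : ∀ a < n * d, ρ a < n * d
  invol : ∀ a < n * d, ρ (ρ a) = a
  noCyc : NoCyc d (n * d) g ρ
  noFix : Even (d * n) → ∀ a < n * d, ρ a ≠ a
  spec : ∀ x : ℕ → ℝ, ∑ i ∈ range n, x i = 0 →
    |∑ a ∈ range (n * d), x (a / d) * x (ρ a / d)| ≤ lam * ∑ i ∈ range n, x i ^ 2

theorem run2 {d n g k : ℕ} {m p : ℚ} {Φ : (ℕ → ℕ) → (ℕ → ℕ → ℝ) → (ℕ → ℕ → ℝ) → ℝ}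
    (hm : (m : ℝ) ^ 2 < 1) (hp : (0 : ℝ) < p) (hg : 1 ≤ g) (hΦ : GoodPot2 d n g m p k Φ)
    {P : St → ℚ}
    (hP : ∀ S : St, (P S : ℝ) = Φ (look (n * d) S.1) (cst (mat S.2.1)) (cst (mat S.2.2))) :
    Pairing d n g (m * d + (1 - m ^ 2) / p) (complete2 (n * d)
      ((step2 d (n * d) g P)^[k] (iniSt m p d (n * d))).1) := by
  have e0 : look (n * d) (iniSt m p d (n * d)).1 = fun _ => n * d := look_ini _
  have key : ∀ j ≤ k, Good2 d n g m p Φ j ((step2 d (n * d) g P)^[j] (iniSt m p d (n * d))) := by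
    intro j hj
    induction j with
    | zero =>
      refine ⟨wf_ini .., ?_, ?_, ?_, ?_, ?_, ?_, ?_, ?_⟩ <;>
        simp only [Function.iterate_zero, id, e0, kerA_ini, kerB_ini, alive_const]
      · exact fun _ _ h => absurd h (lt_irrefl _)
      · exact acyc_const _ _ _
      · exact ker_ini _ _ hp.le d n
      · exact ker_ini _ _ hp.le d n
      · exact spec_ini (by norm_num) hm hp d n
      · exact spec_ini (by norm_num) hm hp d n
      · simp
      · exact hΦ.init
    | succ j ih =>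
      rw [Function.iterate_succ_apply']
      exact (ih (by omega)).step hm hΦ hP (by omega)
  have h := key k le_rfl
  generalize (step2 d (n * d) g P)^[k] (iniSt m p d (n * d)) = S at h
  obtain ⟨f1, f2, f3⟩ := hΦ.final _ _ _ h.kA h.kB h.card h.pot
  have hcard := h.card
  have hinv := h.inv
  set π := look (n * d) S.1 with hπ
  set ρ := complete2 (n * d) S.1 with hρ
  have h1 : ∀ a < n * d, a ∉ alive (n * d) π → ρ a = π a := fun a ha h' => complete2_dead ha h'
  have h2 : ∀ a ∈ alive (n * d) π, ρ a ∈ alive (n * d) π ∧ ρ (ρ a) = a ∧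
      ((alive (n * d) π).card % 2 = 0 → ρ a ≠ a) := fun a ha => complete2_alive ha
  have hdead : ∀ a < n * d, a ∉ alive (n * d) π → π a < n * d := fun a ha h => by
    rw [mem_alive] at h; omega
  have hdead2 : ∀ a < n * d, a ∉ alive (n * d) π → π a ∉ alive (n * d) π := fun a ha h' => by
    rw [mem_alive, hinv a ha (hdead a ha h')]; omega
  have hsum : ∀ f : ℕ → ℝ, ∑ i ∈ alive (n * d) π, f (ρ i) = ∑ i ∈ alive (n * d) π, f i :=
    fun f => sum_nbij' ρ ρ (fun a ha => (h2 a ha).1) (fun a ha => (h2 a ha).1)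
      (fun a ha => (h2 a ha).2.1) (fun a ha => (h2 a ha).2.1) fun _ _ => rfl
  have hlt : ∀ a < n * d, ρ a < n * d := fun a ha => by
    by_cases h' : a ∈ alive (n * d) π
    · exact (mem_alive.1 (h2 a h').1).1
    · rw [h1 a ha h']; exact hdead a ha h'
  refine ⟨hlt, fun a ha => ?_, h.acyc.noCyc (T := fun a => a ∈ alive (n * d) π)
    (fun a ha => (h2 a ha).1) h1 hlt fun a b ha hb => f3 a ha b hb, fun he a ha => ?_,
    fun y hy => ?_⟩
  · by_cases h' : a ∈ alive (n * d) π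
    · exact (h2 a h').2.1
    · rw [h1 a ha h', h1 _ (hdead a ha h') (hdead2 a ha h'), hinv a ha (hdead a ha h')]
  · by_cases h' : a ∈ alive (n * d) π
    · have hev : (n * d) % 2 = 0 := by rw [Nat.mul_comm]; exact Nat.even_iff.1 he
      exact (h2 a h').2.2 (by omega)
    · rw [h1 a ha h']
      intro e
      refine h.acyc 1 (fun _ => a) le_rfl hg ⟨fun _ _ => ha, fun _ _ => hdead a ha h',
        fun _ hi => by omega, fun _ hi => by omega⟩ ?_
      rw [← hπ, e]
  · have b1 := Spec.final (by norm_num) hm h.kA h.sA f1 h1 hsum y hy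
    have b2 := Spec.final (by norm_num) hm h.kB h.sB f2 h1 hsum y hy
    rw [abs_le]
    constructor <;> linarith

/-! ### Polynomial time -/

section PT

variable {α : Type*} [Enc α]

theorem PT_step2 {d N g : α → ℕ} {P : α → St → ℚ} {S : α → St} (hd : PT ∅ d) (hN : PT ∅ N)
    (hNb : PBd N) (hg : PT ∅ g) (hgb : PBd g) (hP : PT ∅ fun p : α × St => P p.1 p.2)
    (hS : PT ∅ S) : PT ∅ fun x => step2 (d x) (N x) (g x) (P x) (S x) := by
  have hN' : PT ∅ fun p : α × ℕ × ℕ => N p.1 := hN.comp PT.fst'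
  have hNb' : PBd fun p : α × ℕ × ℕ => N p.1 := hNb.comp (A := ∅) PT.fst'
  have hS' : PT ∅ fun p : α × ℕ × ℕ => S p.1 := hS.comp PT.fst'
  have hn : PT ∅ fun p : α × ℕ × ℕ => nextSt (N p.1) (S p.1) p.2.1 p.2.2 :=
    PT_nextSt hN' hNb' hS' PT.snd'.fst PT.snd'.snd
  have h1 : PT ∅ fun p : α × ℕ × ℕ => P p.1 (resSt (N p.1) (nextSt (N p.1) (S p.1) p.2.1 p.2.2)) :=
    hP.comp (PT.pair PT.fst' (PT_resSt hN' hNb' hn))
  have h2 : PT ∅ fun p : α × ℕ × ℕ => P p.1 (resSt (N p.1) (S p.1)) :=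
    hP.comp (PT.pair PT.fst' (PT_resSt hN' hNb' hS'))
  have h3 := PT_near (i := fun p : α × ℕ × ℕ => g p.1 - 1) (hd.comp PT.fst') hN' hNb' hS'.fst
    ((hg.comp PT.fst').sub (PT.const 1)) (PBd_sub (hgb.comp (A := ∅) PT.fst'))
    PT.snd'.fst PT.snd'.snd
  have hok : PT ∅ fun p : α × ℕ × ℕ =>
      decide (ok2 (d p.1) (N p.1) (g p.1) (P p.1) (S p.1) p.2.1 p.2.2) := by
    unfold ok2
    exact PT.decide_and (by fun_prop) (PT.decide_and (by fun_prop) (PT.decide_and
      (PT.decide_not h3) (PT.decide_and (by fun_prop) (PT.decide_and (by fun_prop)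
        (PT_ratLe h1 h2)))))
  have hp : PT ∅ fun x => pairs (N x) :=
    PT.flatMap (f := fun x a => (List.range (N x)).map fun b => (a, b)) (PT.range hN hNb)
      (PT.map (f := fun (p : α × ℕ) b => (p.2, b)) ((PT.range hN hNb).comp PT.fst')
        (PT.pair PT.fst'.snd PT.snd'))
  exact PT_optElim (PT.find? (f := fun x (p : ℕ × ℕ) =>
    decide (ok2 (d x) (N x) (g x) (P x) (S x) p.1 p.2)) hp hok) hS hn

theorem PT_iniSt2 {d N : α → ℕ} {m p : α → ℚ} (hd : PT ∅ d) (hN : PT ∅ N) (hNb : PBd N)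
    (hm : PT ∅ m) (hp : PT ∅ p) : PT ∅ fun x => iniSt (m x) (p x) (d x) (N x) := by
  unfold iniSt
  refine PT.pair (PT.map (f := fun x _ => N x) (PT.range hN hNb) (hN.comp PT.fst'))
    (PT.pair (PT_tab hN hNb ?_) (PT_tab hN hNb ?_))
  · unfold ini
    fun_prop
  · unfold ini
    fun_prop

theorem PT_run2 {d N g k : α → ℕ} {m p : α → ℚ} {P : α → St → ℚ} (hd : PT ∅ d) (hN : PT ∅ N)
    (hNb : PBd N) (hg : PT ∅ g) (hgb : PBd g) (hk : PT ∅ k) (hkb : PBd k) (hm : PT ∅ m)
    (hp : PT ∅ p) (hP : PT ∅ fun p : α × St => P p.1 p.2) :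
    PT ∅ fun x => (step2 (d x) (N x) (g x) (P x))^[k x] (iniSt (m x) (p x) (d x) (N x)) := by
  have hi := PT_iniSt2 hd hN hNb hm hp
  have hL : PBd fun x => esize (iniSt (m x) (p x) (d x) (N x)) := hi.pbd
  refine PT.iterate' (step := fun x S => step2 (d x) (N x) (g x) (P x) S) hk hkb hi
    (PT_step2 (P := fun (p : α × St) S => P p.1 S) (hd.comp PT.fst') (hN.comp PT.fst')
      (hNb.comp (A := ∅) PT.fst') (hg.comp PT.fst') (hgb.comp (A := ∅) PT.fst')
      (hP.comp (PT.pair PT.fst'.fst PT.snd')) PT.snd')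
    (b := fun x => sizeBd (N x) (esize (iniSt (m x) (p x) (d x) (N x)))) ?_ fun x j _ => ?_
  · unfold sizeBd
    fun_prop
  · refine (wf_iterate2 (wf_ini (m x) (p x) (d x) (N x)) (d x) (g x) (P x) j).esize_le
      (fun a ha b hb => ?_) fun a ha b hb => ?_
    · exact (esize_le_tab _ ha hb).trans ((esize_fst_le (iniSt (m x) (p x) (d x) (N x)).2).trans
        (esize_snd_le _))
    · exact (esize_le_tab _ ha hb).trans ((esize_snd_le (iniSt (m x) (p x) (d x) (N x)).2).trans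
        (esize_snd_le _))

theorem PT_complete2 {N : α → ℕ} {l : α → List ℕ} {a : α → ℕ} (hN : PT ∅ N) (hNb : PBd N)
    (hl : PT ∅ l) (ha : PT ∅ a) : PT ∅ fun x => complete2 (N x) (l x) (a x) := by
  have h1 : PT ∅ fun x => aliveL (N x) (l x) :=
    PT.filter (f := fun x a => decide (N x ≤ look (N x) (l x) a)) (PT.range hN hNb) (by fun_prop)
  have h2 : PT ∅ fun x => posL (aliveL (N x) (l x)) (a x) :=
    (PT.takeWhile (f := fun x y => decide (y ≠ a x)) h1
      (PT.decide_not (PT.eqNat PT.snd' (ha.comp PT.fst')))).length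
  unfold complete2 mate2
  fun_prop

theorem PT_fullPot2 {d N g y : α → ℕ} {S : α → St} (hd : PT ∅ d) (hN : PT ∅ N) (hNb : PBd N)
    (hg : PT ∅ g) (hgN : ∀ x, g x ≤ N x) (hy : PT ∅ y) (hS : PT ∅ S) :
    PT ∅ fun x => fullPot2 (d x) (N x) (g x) (y x : ℚ) (Psi (N x) (y x : ℚ)) (look (N x) (S x).1)
      (mat (S x).2.1) (mat (S x).2.2) := by
  have h1 := PT_cardAlive hN hNb hS.fst
  have h1b : PBd fun x => (alive (N x) (look (N x) (S x).1)).card :=
    hNb.mono fun x => card_alive_le _ _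
  have h2 := PT_Psi hN hNb (PT_natCast hy) h1
    (ptStats_kstats hN hNb (PK_mat hS.snd.fst) (PK_mat hS.snd.snd))
  have h3 := PT_cntG (t := fun x => 1 / (3200 * (d x : ℚ))) hd hN hNb hg hgN
    (PT_ratDiv (PT.const 1) (PT_ratMul (PT.const 3200) (PT_natCast hd))) hS.fst
  have h5 : PT ∅ fun x => ∑ j ∈ range (alive (N x) (look (N x) (S x).1)).card,
      1 / ((j : ℚ) + 1) :=
    PT_ratSumRange (f := fun _ j => 1 / ((j : ℚ) + 1)) h1 h1b (by fun_prop)
  unfold fullPot2
  exact PT_ratAdd (PT_ratAdd (PT_ratAdd h2 (PT_ratDiv h3 (PT_ratMul (PT_ratDiv (PT_ratMul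
    (PT.const _) (PT_natCast hd)) (PT_natCast hN)) (PT_ratPowConst (PT_natCast h1) 2))))
    (PT_ratMul (PT_ratDiv (PT.const _) (PT_natCast hy)) h5))
    (PT_ratDiv (PT_natCast h1) (PT_ratMul (PT.const _) (PT_natCast hN)))

end PT

theorem cast_fullPot2 (d N g y : ℕ) (π : ℕ → ℕ) (A B : ℕ → ℕ → ℚ) :
    ((fullPot2 d N g (y : ℚ) (Psi N (y : ℚ)) π A B : ℚ) : ℝ) =
      fullPot2 d N g (y : ℝ) (Psi N (y : ℝ)) π (cst A) (cst B) := by
  unfold fullPot2
  push_cast [cast_Psi, cast_kstats, cast_cntG]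
  rfl

end Vale.Agent.N049
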